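import Mathlib

/-! The age of a linear automorphism of finite order. -/

namespace Vale.Agent.P283

/-- The sum, over the eigenvalues `exp (2 π i θ)` counted with algebraic multiplicity, of the
fractional part of `θ`. -/
noncomputable def age {d : ℕ} (g : Matrix.GeneralLinearGroup (Fin d) ℂ) : ℝ :=
  ((g : Matrix (Fin d) (Fin d) ℂ).charpoly.roots.map
    fun z => Int.fract (Complex.arg z / (2 * Real.pi))).sum

end Vale.Agent.P283
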