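import Mathlib

/-! A general combination of monomials has an integrable negative power. -/

namespace Vale.Agent.P283

open MeasureTheory Metric
open scoped ENNReal

theorem integrableOn_abs_rpow {r : ℝ} (hr : -1 < r) (R : ℝ) (hR : 0 ≤ R) :
    IntegrableOn (fun x : ℝ => |x| ^ r) (Set.Icc (-R) R) := by
  have h1 : IntervalIntegrable (fun x : ℝ => |x| ^ r) volume 0 R := by
    refine (intervalIntegral.intervalIntegrable_rpow' hr).congr fun x hx => ?_
    rw [Set.uIoc_of_le hR] at hx
    simp only [abs_of_pos hx.1]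
  have h2 : IntervalIntegrable (fun x : ℝ => |x| ^ r) volume (-R) 0 := by
    rw [IntervalIntegrable.iff_comp_neg]
    simpa using h1.symm
  rw [integrableOn_Icc_iff_integrableOn_Ioc, ← intervalIntegrable_iff_integrableOn_Ioc_of_le (by linarith)]
  exact h2.trans h1

theorem integrable_disc_rpow {β : ℝ} (h0 : 0 ≤ β) (h2 : β < 2) (R : ℝ) (hR : 0 ≤ R) :
    IntegrableOn (fun z : ℂ => ‖z‖ ^ (-β)) (closedBall 0 R) := by
  let g : ℝ → ℝ := (Set.Icc (-R) R).indicator fun x => |x| ^ (-(β / 2))
  have hg : Integrable g :=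
    (integrableOn_abs_rpow (by linarith) R hR).integrable_indicator measurableSet_Icc
  have hgg : Integrable (fun z : ℂ => g z.re * g z.im) := by
    have := Complex.volume_preserving_equiv_real_prod.integrable_comp_of_integrable (hg.mul_prod hg)
    exact this
  refine (hgg.integrableOn).mono' (measurable_norm.pow_const (-β)).aestronglyMeasurable ?_
  refine (ae_restrict_iff' measurableSet_closedBall).2 ?_
  have hre : ∀ᵐ z : ℂ, z.re ≠ 0 := by
    have := Complex.volume_preserving_equiv_real_prod.quasiMeasurePreserving.ae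
      (Measure.quasiMeasurePreserving_fst.ae (Measure.ae_ne (volume : Measure ℝ) 0))
    exact this
  have him : ∀ᵐ z : ℂ, z.im ≠ 0 := by
    have := Complex.volume_preserving_equiv_real_prod.quasiMeasurePreserving.ae
      (Measure.quasiMeasurePreserving_snd.ae (Measure.ae_ne (volume : Measure ℝ) 0))
    exact this
  filter_upwards [hre, him] with z hr hi hz
  rw [mem_closedBall, dist_zero_right] at hz
  have hzr := Complex.abs_re_le_norm z
  have hzi := Complex.abs_im_le_norm z
  have hr' : z.re ∈ Set.Icc (-R) R := abs_le.1 (hzr.trans hz)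
  have hi' : z.im ∈ Set.Icc (-R) R := abs_le.1 (hzi.trans hz)
  simp only [g, Set.indicator_of_mem hr', Set.indicator_of_mem hi']
  rw [Real.norm_of_nonneg (Real.rpow_nonneg (norm_nonneg _) _),
    show -β = -(β / 2) + -(β / 2) by ring,
    Real.rpow_add (lt_of_lt_of_le (abs_pos.2 hr) hzr)]
  have h3 : 0 < |z.re| := abs_pos.2 hr
  have h4 : 0 < |z.im| := abs_pos.2 hi
  exact mul_le_mul (Real.rpow_le_rpow_of_nonpos h3 hzr (by linarith))
    (Real.rpow_le_rpow_of_nonpos h4 hzi (by linarith)) (Real.rpow_nonneg (norm_nonneg _) _)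
    (Real.rpow_nonneg h3.le _)

variable {ι : Type*} [Fintype ι]

theorem ae_coords_ne_zero : ∀ᵐ x : ι → ℂ, ∀ i, x i ≠ 0 :=
  ae_all_iff.2 fun i =>
    (Measure.quasiMeasurePreserving_eval (fun _ => (volume : Measure ℂ)) i).ae
      (Measure.ae_ne (volume : Measure ℂ) 0)

theorem lintegral_prod_rpow_lt_top (β : ι → ℝ) (h0 : ∀ i, 0 ≤ β i) (h2 : ∀ i, β i < 2)
    (R : ℝ) (hR : 0 ≤ R) :
    ∫⁻ x in closedBall (0 : ι → ℂ) R, ENNReal.ofReal (∏ i, ‖x i‖ ^ (-β i)) < ⊤ := by
  have hint : Integrable fun x : ι → ℂ =>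
      ∏ i, (closedBall (0 : ℂ) R).indicator (fun z => ‖z‖ ^ (-β i)) (x i) :=
    Integrable.fintype_prod fun i =>
      (integrable_disc_rpow (h0 i) (h2 i) R hR).integrable_indicator measurableSet_closedBall
  refine lt_of_le_of_lt ?_ hint.hasFiniteIntegral
  calc ∫⁻ x in closedBall (0 : ι → ℂ) R, ENNReal.ofReal (∏ i, ‖x i‖ ^ (-β i))
      ≤ ∫⁻ x in closedBall (0 : ι → ℂ) R,
        ‖∏ i, (closedBall (0 : ℂ) R).indicator (fun z => ‖z‖ ^ (-β i)) (x i)‖ₑ := by
        refine setLIntegral_mono' measurableSet_closedBall fun x hx => ?_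
        have hxi : ∀ i, x i ∈ closedBall (0 : ℂ) R := fun i => by
          rw [mem_closedBall, dist_zero_right] at hx ⊢
          exact (norm_le_pi_norm x i).trans hx
        rw [← ofReal_norm, Real.norm_of_nonneg
          (Finset.prod_nonneg fun i _ => Set.indicator_nonneg (fun z _ => by positivity) _)]
        refine le_of_eq (congrArg _ (Finset.prod_congr rfl fun i _ => ?_))
        rw [Set.indicator_of_mem (hxi i)]
    _ ≤ _ := setLIntegral_le_lintegral _ _

theorem disc_translate_le {s : ℝ} (hs : 0 ≤ s) (a : ℂ) :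
    ∫⁻ t in closedBall (0 : ℂ) 1, ‖t + a‖ₑ ^ (-s) ≤
      (∫⁻ t in closedBall (0 : ℂ) 1, ‖t‖ₑ ^ (-s)) + volume (closedBall (0 : ℂ) 1) := by
  set F : ℂ → ℝ≥0∞ := (closedBall (0 : ℂ) 1).indicator fun t => ‖t‖ₑ ^ (-s)
  calc ∫⁻ t in closedBall (0 : ℂ) 1, ‖t + a‖ₑ ^ (-s)
      ≤ ∫⁻ t in closedBall (0 : ℂ) 1, (F (t + a) + 1) := by
        refine setLIntegral_mono' measurableSet_closedBall fun t _ => ?_
        by_cases h : t + a ∈ closedBall (0 : ℂ) 1
        · simp only [F, Set.indicator_of_mem h]; exact le_self_add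
        · refine le_add_left ?_
          rw [mem_closedBall, dist_zero_right, not_le] at h
          rw [ENNReal.rpow_neg, ENNReal.inv_le_one]
          rcases hs.eq_or_lt with rfl | hs'
          · simp
          refine ENNReal.one_le_rpow ?_ hs'
          rw [← ofReal_norm, ENNReal.one_le_ofReal]
          exact h.le
    _ = (∫⁻ t in closedBall (0 : ℂ) 1, F (t + a)) + volume (closedBall (0 : ℂ) 1) := by
        rw [lintegral_add_right _ measurable_const, setLIntegral_one]
    _ ≤ (∫⁻ t, F (t + a)) + volume (closedBall (0 : ℂ) 1) := by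
        exact add_le_add (setLIntegral_le_lintegral _ _) le_rfl
    _ = _ := by
        rw [lintegral_add_right_eq_self F a, lintegral_indicator measurableSet_closedBall]

/-- Bound for the average over one coefficient. -/
theorem coeff_average_le {s : ℝ} (hs : 0 ≤ s) {L : ℕ} (w : Fin (L + 1) → ℂ)
    (k : Fin (L + 1)) (hk : w k ≠ 0) :
    ∫⁻ c in closedBall (0 : Fin (L + 1) → ℂ) 1, ‖∑ j, c j * w j‖ₑ ^ (-s) ≤
      ((∫⁻ t in closedBall (0 : ℂ) 1, ‖t‖ₑ ^ (-s)) + volume (closedBall (0 : ℂ) 1)) *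
        volume (closedBall (0 : Fin L → ℂ) 1) * ‖w k‖ₑ ^ (-s) := by
  set I := (∫⁻ t in closedBall (0 : ℂ) 1, ‖t‖ₑ ^ (-s)) + volume (closedBall (0 : ℂ) 1)
  let G : ℂ × (Fin L → ℂ) → ℝ≥0∞ :=
    fun p => (closedBall (0 : ℂ) 1 ×ˢ closedBall (0 : Fin L → ℂ) 1).indicator
      (fun p => ‖p.1 * w k + ∑ j, p.2 j * w (k.succAbove j)‖ₑ ^ (-s)) p
  have hGm : Measurable G :=
    (Measurable.pow_const (Measurable.enorm (by fun_prop)) _).indicator
      (measurableSet_closedBall.prod measurableSet_closedBall)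
  have hmp := volume_preserving_piFinSuccAbove (fun _ : Fin (L + 1) => ℂ) k
  calc ∫⁻ c in closedBall (0 : Fin (L + 1) → ℂ) 1, ‖∑ j, c j * w j‖ₑ ^ (-s)
      ≤ ∫⁻ c, G (MeasurableEquiv.piFinSuccAbove (fun _ : Fin (L + 1) => ℂ) k c) := by
        rw [← lintegral_indicator measurableSet_closedBall]
        refine lintegral_mono fun c => ?_
        by_cases hc : c ∈ closedBall (0 : Fin (L + 1) → ℂ) 1
        · rw [Set.indicator_of_mem hc]
          rw [mem_closedBall, dist_zero_right] at hc
          have hmem : MeasurableEquiv.piFinSuccAbove (fun _ : Fin (L + 1) => ℂ) k c ∈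
              closedBall (0 : ℂ) 1 ×ˢ closedBall (0 : Fin L → ℂ) 1 := by
            simp only [Set.mem_prod, mem_closedBall, dist_zero_right]
            exact ⟨(norm_le_pi_norm c k).trans hc,
              (pi_norm_le_iff_of_nonneg zero_le_one).2 fun j => (norm_le_pi_norm c _).trans hc⟩
          simp only [G, Set.indicator_of_mem hmem]
          rw [Fin.sum_univ_succAbove _ k]
          exact le_rfl
        · rw [Set.indicator_of_notMem hc]; exact zero_le
    _ = ∫⁻ p, G p := hmp.lintegral_comp hGm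
    _ = ∫⁻ r, ∫⁻ t, G (t, r) := by
        rw [Measure.volume_eq_prod, lintegral_prod _ hGm.aemeasurable, lintegral_lintegral_swap]
        exact hGm.aemeasurable
    _ ≤ ∫⁻ r in closedBall (0 : Fin L → ℂ) 1, I * ‖w k‖ₑ ^ (-s) := by
        rw [← lintegral_indicator measurableSet_closedBall]
        refine lintegral_mono fun r => ?_
        by_cases hr : r ∈ closedBall (0 : Fin L → ℂ) 1
        · rw [Set.indicator_of_mem hr]
          set q := ∑ j, r j * w (k.succAbove j)
          calc ∫⁻ t, G (t, r) = ∫⁻ t in closedBall (0 : ℂ) 1,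
                ‖t + q / w k‖ₑ ^ (-s) * ‖w k‖ₑ ^ (-s) := by
                rw [← lintegral_indicator measurableSet_closedBall]
                refine lintegral_congr fun t => ?_
                by_cases ht : t ∈ closedBall (0 : ℂ) 1
                · simp only [G, Set.indicator_of_mem ht, Set.indicator_of_mem (Set.mk_mem_prod ht hr)]
                  rw [← ENNReal.mul_rpow_of_ne_top enorm_ne_top enorm_ne_top, ← enorm_mul, add_mul,
                    div_mul_cancel₀ _ hk]
                · simp [G, ht]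
            _ ≤ I * ‖w k‖ₑ ^ (-s) := by
                rw [lintegral_mul_const _
                  (Measurable.pow_const (Measurable.enorm (by fun_prop)) _)]
                gcongr
                exact disc_translate_le hs _
        · rw [Set.indicator_of_notMem hr]
          simp [G, hr]
    _ = _ := by rw [setLIntegral_const]; ring

/-- A general combination of the monomials has a locally integrable negative power. -/
theorem exists_generic {L n : ℕ} (hn : 2 ≤ n) (e : Fin (L + 1) → ι → ℕ)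
    (he : ∀ i, ∑ j, e j i < (L + 1) * n) :
    ∃ c : Fin (L + 1) → ℂ, ∀ K : Set (ι → ℂ), IsCompact K →
      ∫⁻ x in K, ‖∑ j, c j * ∏ i, x i ^ e j i‖ₑ ^ (-((2 : ℝ) / n)) < ⊤ := by
  classical
  set s : ℝ := 2 / n with hs
  have hn' : (2 : ℝ) ≤ n := by exact_mod_cast hn
  have hs0 : 0 ≤ s := by positivity
  have hs2 : s < 2 := by rw [hs, div_lt_iff₀ (by linarith)]; linarith
  set D := closedBall (0 : Fin (L + 1) → ℂ) 1
  set F : (Fin (L + 1) → ℂ) → (ι → ℂ) → ℝ≥0∞ :=
    fun c x => ‖∑ j, c j * ∏ i, x i ^ e j i‖ₑ ^ (-s) with hFdef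
  have hFm : Measurable (Function.uncurry F) :=
    Measurable.pow_const (Measurable.enorm (by fun_prop)) _
  set β : ι → ℝ := fun i => (∑ j, (e j i : ℝ)) * (s / (L + 1)) with hβ
  set C := ((∫⁻ t in closedBall (0 : ℂ) 1, ‖t‖ₑ ^ (-s)) + volume (closedBall (0 : ℂ) 1)) *
        volume (closedBall (0 : Fin L → ℂ) 1) with hC
  have hCtop : C ≠ ⊤ := by
    refine ENNReal.mul_ne_top (ENNReal.add_ne_top.2 ⟨?_, measure_closedBall_lt_top.ne⟩)
      measure_closedBall_lt_top.ne
    refine (lt_of_le_of_lt ?_ (integrable_disc_rpow hs0 hs2 1 zero_le_one).hasFiniteIntegral).ne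
    refine lintegral_mono_ae ?_
    filter_upwards [ae_restrict_of_ae (Measure.ae_ne (volume : Measure ℂ) 0)] with t ht
    rw [← ofReal_norm, ENNReal.ofReal_rpow_of_pos (norm_pos_iff.2 ht)]
    exact (Real.enorm_of_nonneg (Real.rpow_nonneg (norm_nonneg _) _)).ge
  have hpt : ∀ x : ι → ℂ, (∀ i, x i ≠ 0) →
      ∫⁻ c in D, F c x ≤ C * ENNReal.ofReal (∏ i, ‖x i‖ ^ (-β i)) := by
    intro x hx
    set w : Fin (L + 1) → ℂ := fun j => ∏ i, x i ^ e j i
    obtain ⟨k, -, hk⟩ := Finset.exists_max_image Finset.univ (fun j => ‖w j‖) Finset.univ_nonempty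
    have hw : ∀ j, 0 < ‖w j‖ := fun j =>
      norm_pos_iff.2 (Finset.prod_ne_zero_iff.2 fun i _ => pow_ne_zero _ (hx i))
    refine (coeff_average_le hs0 w k (norm_pos_iff.1 (hw k))).trans ?_
    gcongr
    rw [← ofReal_norm, ENNReal.ofReal_rpow_of_pos (hw k)]
    refine ENNReal.ofReal_le_ofReal ?_
    have hL : (0 : ℝ) < L + 1 := by positivity
    calc ‖w k‖ ^ (-s) = ∏ _j : Fin (L + 1), ‖w k‖ ^ (-(s / (L + 1))) := by
          rw [Finset.prod_const, Finset.card_univ, Fintype.card_fin, ← Real.rpow_mul_natCast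
            (norm_nonneg _)]
          congr 1; push_cast; field_simp
      _ ≤ ∏ j, ‖w j‖ ^ (-(s / (L + 1))) :=
          Finset.prod_le_prod (fun j _ => Real.rpow_nonneg (norm_nonneg _) _) fun j hj =>
            Real.rpow_le_rpow_of_nonpos (hw j) (hk j hj) (by have := div_nonneg hs0 hL.le; linarith)
      _ = ∏ j, ∏ i, ‖x i‖ ^ (-((e j i : ℝ) * (s / (L + 1)))) := by
          refine Finset.prod_congr rfl fun j _ => ?_
          rw [norm_prod, ← Real.finsetProd_rpow _ _ (fun i _ => norm_nonneg _)]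
          refine Finset.prod_congr rfl fun i _ => ?_
          rw [norm_pow, ← Real.rpow_natCast_mul (norm_nonneg _), mul_neg]
      _ = ∏ i, ‖x i‖ ^ (-β i) := by
          rw [Finset.prod_comm]
          refine Finset.prod_congr rfl fun i _ => ?_
          rw [← Real.rpow_sum_of_pos (norm_pos_iff.2 (hx i))]
          congr 1
          simp only [hβ]
          rw [Finset.sum_neg_distrib, Finset.sum_mul]
  have hβ2 : ∀ i, β i < 2 := by
    intro i
    have h1 : (∑ j, (e j i : ℝ)) < ((L : ℝ) + 1) * n := by exact_mod_cast he i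
    have h2 : β i = (∑ j, (e j i : ℝ)) * 2 / (((L : ℝ) + 1) * n) := by
      simp only [hβ, hs]; field_simp
    rw [h2, div_lt_iff₀ (by positivity)]
    linarith
  have hfin : ∀ R : ℕ, ∀ᵐ c ∂(volume.restrict D),
      ∫⁻ x in closedBall (0 : ι → ℂ) R, F c x < ⊤ := by
    intro R
    refine ae_lt_top hFm.lintegral_prod_right' ?_
    rw [lintegral_lintegral_swap hFm.aemeasurable]
    refine (lt_of_le_of_lt (lintegral_mono_ae ?_) (?_ :
      ∫⁻ x in closedBall (0 : ι → ℂ) R, C * ENNReal.ofReal (∏ i, ‖x i‖ ^ (-β i)) < ⊤)).ne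
    · filter_upwards [ae_restrict_of_ae ae_coords_ne_zero] with x hx using hpt x hx
    · rw [lintegral_const_mul' _ _ hCtop]
      exact ENNReal.mul_lt_top hCtop.lt_top
        (lintegral_prod_rpow_lt_top β (fun i => by simp only [hβ]; positivity) hβ2 R
          (Nat.cast_nonneg _))
  have : (ae (volume.restrict D)).NeBot := by
    rw [ae_neBot, Ne, Measure.restrict_eq_zero]
    exact (measure_closedBall_pos _ _ one_pos).ne'
  obtain ⟨c, hc⟩ := (ae_all_iff.2 hfin).exists
  refine ⟨c, fun K hK => ?_⟩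
  obtain ⟨r, hr⟩ := hK.isBounded.subset_closedBall 0
  refine lt_of_le_of_lt (lintegral_mono_set ?_) (hc ⌈r⌉₊)
  exact hr.trans (closedBall_subset_closedBall (Nat.le_ceil r))

end Vale.Agent.P283
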