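import Mathlib.MeasureTheory.Covering.BesicovitchVectorSpace
import Mathlib.LinearAlgebra.Matrix.GeneralLinearGroup.Defs
import Mathlib.LinearAlgebra.Matrix.ToLin
import Mathlib.GroupTheory.Index
import Mathlib.GroupTheory.OrderOfElement
import Mathlib.Analysis.Normed.Operator.Basic
import Mathlib.Analysis.Normed.Ring.Units
import Mathlib.Analysis.Complex.Basic
import Mathlib.LinearAlgebra.Complex.FiniteDimensional
import Mathlib.LinearAlgebra.FreeModule.Finite.Matrix

/-! Jordan's theorem on finite subgroups of `GL d ℂ`, by the commutator contraction argument. -/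

namespace Vale.Agent.P283

open Module

section NormedRing

variable {R : Type*} [NormedRing R] {G : Type*} [Group G] (ρ : G →* R)

private theorem norm_rho_mul (h1 : ∀ g, ‖ρ g‖ ≤ 1) (g : G) (x : R) : ‖ρ g * x‖ ≤ ‖x‖ :=
  (norm_mul_le _ _).trans (mul_le_of_le_one_left (norm_nonneg _) (h1 g))

private theorem norm_mul_rho (h1 : ∀ g, ‖ρ g‖ ≤ 1) (g : G) (x : R) : ‖x * ρ g‖ ≤ ‖x‖ :=
  (norm_mul_le _ _).trans (mul_le_of_le_one_right (norm_nonneg _) (h1 g))

private theorem dist_inv (h1 : ∀ g, ‖ρ g‖ ≤ 1) (g : G) : ‖ρ g⁻¹ - 1‖ ≤ ‖ρ g - 1‖ := by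
  have : ρ g⁻¹ - 1 = -(ρ g⁻¹ * (ρ g - 1)) := by
    rw [mul_sub, ← map_mul, inv_mul_cancel, map_one, mul_one, neg_sub]
  rw [this, norm_neg]
  exact norm_rho_mul ρ h1 _ _

private theorem dist_conj (h1 : ∀ g, ‖ρ g‖ ≤ 1) (a b : G) :
    ‖ρ (a * b * a⁻¹) - 1‖ ≤ ‖ρ b - 1‖ := by
  have : ρ (a * b * a⁻¹) - 1 = ρ a * (ρ b - 1) * ρ a⁻¹ := by
    rw [mul_sub, sub_mul, mul_one, ← map_mul, ← map_mul, ← map_mul, mul_inv_cancel, map_one]
  rw [this]
  exact (norm_mul_rho ρ h1 _ _).trans (norm_rho_mul ρ h1 _ _)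

private theorem dist_commutator (h1 : ∀ g, ‖ρ g‖ ≤ 1) (a b : G) :
    ‖ρ (a * b * a⁻¹ * b⁻¹) - 1‖ ≤ 2 * ‖ρ a - 1‖ * ‖ρ b - 1‖ := by
  have key : ρ (a * b * a⁻¹ * b⁻¹) - 1
      = ((ρ a - 1) * (ρ b - 1) - (ρ b - 1) * (ρ a - 1)) * ρ a⁻¹ * ρ b⁻¹ := by
    have h : (ρ a - 1) * (ρ b - 1) - (ρ b - 1) * (ρ a - 1) = ρ a * ρ b - ρ b * ρ a := by
      noncomm_ring
    have e : b * a * a⁻¹ * b⁻¹ = 1 := by group
    rw [h, sub_mul, sub_mul, ← map_mul, ← map_mul, ← map_mul, ← map_mul, ← map_mul, ← map_mul,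
      e, map_one]
  rw [key]
  refine ((norm_mul_rho ρ h1 _ _).trans (norm_mul_rho ρ h1 _ _)).trans ((norm_sub_le _ _).trans ?_)
  have e1 := norm_mul_le (ρ a - 1) (ρ b - 1)
  have e2 := norm_mul_le (ρ b - 1) (ρ a - 1)
  nlinarith

/-- Small elements of a finite group acting by isometries commute. -/
theorem small_commute [Finite G] [HasSummableGeomSeries R] [NormedAlgebra ℝ R]
    (h1 : ∀ g, ‖ρ g‖ ≤ 1) (hinj : Function.Injective ρ) :
    ∀ a b : G, ‖ρ a - 1‖ < 1 / 2 → ‖ρ b - 1‖ < 1 / 2 → Commute a b := by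
  by_contra hne
  push Not at hne
  obtain ⟨a₀, b₀, ha₀, hb₀, hab₀⟩ := hne
  let T : Set G := {b | ‖ρ b - 1‖ < 1 / 2 ∧ ∃ a, ‖ρ a - 1‖ < 1 / 2 ∧ ¬ Commute a b}
  obtain ⟨b, hbT, hmin⟩ := Set.exists_min_image T (fun g => ‖ρ g - 1‖) (Set.toFinite T)
    ⟨b₀, hb₀, a₀, ha₀, hab₀⟩
  obtain ⟨hb, a, ha, hab⟩ := hbT
  set c := a * b * a⁻¹ * b⁻¹ with hc
  have hbpos : 0 < ‖ρ b - 1‖ := by
    rw [norm_pos_iff, sub_ne_zero]
    intro h
    apply hab
    have : b = 1 := hinj (h.trans (map_one ρ).symm)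
    rw [this]; exact Commute.one_right a
  have hclt : ‖ρ c - 1‖ < ‖ρ b - 1‖ := by
    refine (dist_commutator ρ h1 a b).trans_lt ?_
    nlinarith
  have hcc : ∀ x, ‖ρ x - 1‖ < 1 / 2 → Commute x c := fun x hx => by
    by_contra hxc
    have := hmin c ⟨hclt.trans hb, x, hx, hxc⟩
    linarith
  have hca : Commute a c := hcc a ha
  have hconj : a * b * a⁻¹ = c * b := by rw [hc, inv_mul_cancel_right]
  have hpow : ∀ j : ℕ, a ^ j * b * (a ^ j)⁻¹ = c ^ j * b := by
    intro j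
    induction j with
    | zero => simp
    | succ j ih =>
      calc a ^ (j + 1) * b * (a ^ (j + 1))⁻¹ = a * (a ^ j * b * (a ^ j)⁻¹) * a⁻¹ := by
            rw [pow_succ']; group
        _ = c ^ j * (a * b * a⁻¹) := by
            rw [ih, ← mul_assoc, (hca.pow_right j).eq]; group
        _ = c ^ (j + 1) * b := by rw [hconj, ← mul_assoc, pow_succ]
  have hsmall : ∀ j : ℕ, ‖ρ c ^ j - 1‖ < 1 := by
    intro j
    have e1 : ‖ρ (c ^ j * b) - 1‖ < 1 / 2 := by
      rw [← hpow j]; exact (dist_conj ρ h1 _ _).trans_lt hb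
    have e2 : ‖ρ b⁻¹ - 1‖ < 1 / 2 := (dist_inv ρ h1 b).trans_lt hb
    have e3 : ρ c ^ j - 1 = (ρ (c ^ j * b) - 1) * ρ b⁻¹ + (ρ b⁻¹ - 1) := by
      rw [sub_mul, one_mul, ← map_mul, mul_inv_cancel_right, map_pow]
      abel
    rw [e3]
    refine (norm_add_le _ _).trans_lt ?_
    have := norm_mul_rho ρ h1 b⁻¹ (ρ (c ^ j * b) - 1)
    linarith
  set m := orderOf c with hm
  have hmpos : 0 < m := orderOf_pos c
  set P := ∑ j ∈ Finset.range m, ρ c ^ j with hP
  have hP0 : (ρ c - 1) * P = 0 := by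
    rw [hP, mul_geom_sum, ← map_pow, hm, pow_orderOf_eq_one, map_one, sub_self]
  have hPu : IsUnit ((m : ℝ)⁻¹ • P) := by
    have : ‖1 - (m : ℝ)⁻¹ • P‖ < 1 := by
      have e : 1 - (m : ℝ)⁻¹ • P = (m : ℝ)⁻¹ • ∑ j ∈ Finset.range m, (1 - ρ c ^ j) := by
        rw [Finset.sum_sub_distrib, smul_sub, Finset.sum_const, Finset.card_range,
          ← Nat.cast_smul_eq_nsmul ℝ, smul_smul, inv_mul_cancel₀ (by positivity), one_smul]
      rw [e, norm_smul, norm_inv, RCLike.norm_natCast, inv_mul_lt_iff₀ (by positivity), mul_one]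
      refine (norm_sum_le _ _).trans_lt ?_
      calc ∑ j ∈ Finset.range m, ‖1 - ρ c ^ j‖ < ∑ _j ∈ Finset.range m, (1 : ℝ) := by
            refine Finset.sum_lt_sum_of_nonempty (Finset.nonempty_range_iff.2 hmpos.ne') ?_
            intro j _
            rw [norm_sub_rev]; exact hsmall j
        _ = m := by simp
    have := isUnit_one_sub_of_norm_lt_one this
    simpa using this
  have hc1 : ρ c - 1 = 0 := by
    have : (ρ c - 1) * ((m : ℝ)⁻¹ • P) = 0 := by rw [mul_smul_comm, hP0, smul_zero]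
    exact hPu.mul_left_eq_zero.1 this
  have : c = 1 := hinj (by rw [map_one]; exact sub_eq_zero.1 hc1)
  apply hab
  rw [this, one_mul] at hconj
  exact mul_inv_eq_iff_eq_mul.1 hconj

end NormedRing

/-- Jordan's bound for `GL d ℂ`. -/
def jordanBound (d : ℕ) : ℕ := 5 ^ (2 * (d * d))

theorem jordan_aux {W : Type*} [NormedAddCommGroup W] [NormedSpace ℂ W] [FiniteDimensional ℂ W]
    {G : Type*} [Group G] [Finite G] {d : ℕ} (hWd : finrank ℂ W = d) (ρ : G →* (W →L[ℂ] W))
    (hρ1 : ∀ h, ‖ρ h‖ ≤ 1) (hρinj : Function.Injective ρ) :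
    ∃ A : Subgroup G, (∀ a ∈ A, ∀ b ∈ A, a * b = b * a) ∧ A.index ≤ jordanBound d ∧
      A.index ≠ 0 := by
  classical
  have : CompleteSpace W := FiniteDimensional.complete ℂ W
  have hcomm := small_commute (R := W →L[ℂ] W) ρ hρ1 hρinj
  let S : Set G := {g | ‖ρ g - 1‖ < 1 / 2}
  let A : Subgroup G := Subgroup.closure S
  refine ⟨A, ?_, ?_, Subgroup.index_ne_zero_of_finite⟩
  · intro a ha b hb
    induction ha, hb using Subgroup.closure_induction₂ with
    | mem x y hx hy => exact hcomm x y hx hy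
    | one_left x _ => simp
    | one_right x _ => simp
    | mul_left x y z _ _ _ h1 h2 => exact Commute.mul_left h1 h2
    | mul_right x y z _ _ _ h1 h2 => exact Commute.mul_right h1 h2
    | inv_left x y _ _ h => exact Commute.inv_left h
    | inv_right x y _ _ h => exact Commute.inv_right h
  · have := Fintype.ofFinite (G ⧸ A)
    let r : G ⧸ A → (W →L[ℂ] W) := fun q => (2 : ℝ) • ρ q.out
    have hsep : ∀ q q', q ≠ q' → 1 ≤ ‖r q - r q'‖ := by
      intro q q' hqq
      have hns : q.out⁻¹ * q'.out ∉ S := by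
        intro hmem
        apply hqq
        rw [← QuotientGroup.out_eq' q, ← QuotientGroup.out_eq' q']
        exact QuotientGroup.eq.2 (Subgroup.subset_closure hmem)
      have h2 : ρ (q.out⁻¹ * q'.out) - 1 = ρ q.out⁻¹ * (ρ q'.out - ρ q.out) := by
        rw [mul_sub, ← map_mul, ← map_mul, inv_mul_cancel, map_one]
      have h3 : 1 / 2 ≤ ‖ρ (q.out⁻¹ * q'.out) - 1‖ := not_lt.1 hns
      rw [h2] at h3
      have h4 := h3.trans (norm_rho_mul ρ hρ1 _ _)
      rw [show r q - r q' = (2 : ℝ) • (ρ q.out - ρ q'.out) from (smul_sub _ _ _).symm,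
        norm_smul, norm_sub_rev (ρ q.out)]
      norm_num
      linarith
    have hrinj : Function.Injective r := fun q q' h => by
      by_contra hne
      have := hsep q q' hne
      rw [h, sub_self, norm_zero] at this
      linarith
    have : FiniteDimensional ℂ (W →L[ℂ] W) := inferInstance
    have : FiniteDimensional ℝ (W →L[ℂ] W) := Module.Finite.trans ℂ (W →L[ℂ] W)
    have hcard := Besicovitch.card_le_of_separated (Finset.univ.image r)
      (fun c hc => by
        obtain ⟨q, -, rfl⟩ := Finset.mem_image.1 hc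
        rw [norm_smul]; norm_num
        linarith [hρ1 q.out])
      (fun c hc e he hne => by
        obtain ⟨q, -, rfl⟩ := Finset.mem_image.1 hc
        obtain ⟨q', -, rfl⟩ := Finset.mem_image.1 he
        exact hsep q q' fun h => hne (by rw [h]))
    rw [Finset.card_image_of_injective _ hrinj, Finset.card_univ] at hcard
    have hdim : finrank ℝ (W →L[ℂ] W) = 2 * (d * d) := by
      rw [finrank_real_of_complex, ← LinearEquiv.finrank_eq
        (LinearMap.toContinuousLinearMap : (W →ₗ[ℂ] W) ≃ₗ[ℂ] (W →L[ℂ] W)),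
        finrank_linearMap, hWd]
    rw [hdim, ← Nat.card_eq_fintype_card] at hcard
    simpa [jordanBound, Subgroup.index] using hcard


theorem jordan {d : ℕ} (G : Subgroup (Matrix.GeneralLinearGroup (Fin d) ℂ)) [Finite G] :
    ∃ A : Subgroup G, (∀ a ∈ A, ∀ b ∈ A, a * b = b * a) ∧ A.index ≤ jordanBound d ∧
      A.index ≠ 0 := by
  classical
  have := Fintype.ofFinite G
  let V := Fin d → ℂ
  let Φ : V →ₗ[ℂ] (G → V) := LinearMap.pi fun g =>
    Matrix.mulVecLin (((g : Matrix.GeneralLinearGroup (Fin d) ℂ)) : Matrix (Fin d) (Fin d) ℂ)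
  have hΦ : ∀ v g, Φ v g = (((g : Matrix.GeneralLinearGroup (Fin d) ℂ)) :
      Matrix (Fin d) (Fin d) ℂ).mulVec v := fun v g => rfl
  have hΦ1 : ∀ v, Φ v 1 = v := fun v => by simp [hΦ]
  have hΦinj : Function.Injective Φ := fun v w h => by
    rw [← hΦ1 v, ← hΦ1 w, h]
  let W := LinearMap.range Φ
  have hshift : ∀ (h : G) (w : W), (fun g => (w : G → V) (g * h)) ∈ W := by
    rintro h ⟨-, v, rfl⟩
    refine ⟨Φ v h, ?_⟩
    funext g
    simp [hΦ, Matrix.mulVec_mulVec]
  let T : G → (W →ₗ[ℂ] W) := fun h =>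
    { toFun := fun w => ⟨fun g => (w : G → V) (g * h), hshift h w⟩
      map_add' := fun w w' => rfl
      map_smul' := fun c w => rfl }
  let ρ : G →* (W →L[ℂ] W) :=
    { toFun := fun h => LinearMap.toContinuousLinearMap (T h)
      map_one' := by
        ext w : 1
        apply Subtype.ext
        funext g
        simp [T]
      map_mul' := fun h h' => by
        ext w : 1
        apply Subtype.ext
        funext g
        simp [T, mul_assoc] }
  have hρ : ∀ (h : G) (w : W) (g : G), ((ρ h w : W) : G → V) g = (w : G → V) (g * h) :=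
    fun h w g => rfl
  have hρ1 : ∀ h, ‖ρ h‖ ≤ 1 := fun h => by
    refine ContinuousLinearMap.opNorm_le_bound _ zero_le_one fun w => ?_
    rw [one_mul]
    refine (pi_norm_le_iff_of_nonneg (norm_nonneg _)).2 fun g => ?_
    change ‖((ρ h w : W) : G → V) g‖ ≤ ‖(w : G → V)‖
    rw [hρ]
    exact norm_le_pi_norm (w : G → V) (g * h)
  have hρinj : Function.Injective ρ := by
    intro h h' he
    apply Subtype.ext
    apply Units.ext
    apply Matrix.ext_of_mulVec_single
    intro i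
    have := congrArg (fun L : W →L[ℂ] W => ((L ⟨Φ (Pi.single i 1), _, rfl⟩ : W) : G → V) 1) he
    simpa [hρ, hΦ] using this
  exact jordan_aux (W := W) (by rw [LinearMap.finrank_range_of_inj hΦinj, finrank_fin_fun]) ρ hρ1
    hρinj

end Vale.Agent.P283
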