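import Mathlib

/-! Dual lattice points for finite diagonal groups all of whose ages are bounded below. -/

namespace Vale.Agent.P283

open Finset

variable {ι : Type*} [Fintype ι] {A : Type*} [CommGroup A] [Finite A]

/-- The age computed from a tuple of diagonal characters. -/
noncomputable def diagAge (lam : ι → (A →* ℂ)) (a : A) : ℝ :=
  ∑ i, Int.fract (Complex.arg (lam i a) / (2 * Real.pi))

/-- The monomial character with exponents `m`. -/
noncomputable def monoChar (lam : ι → (A →* ℂ)) (m : ι → ℤ) : A →* ℂ where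
  toFun a := ∏ i, lam i a ^ m i
  map_one' := by simp
  map_mul' a b := by simp [mul_zpow, Finset.prod_mul_distrib]

omit [Finite A] in
theorem lam_ne_zero (f : A →* ℂ) (a : A) : f a ≠ 0 :=
  ((Group.isUnit a).map f).ne_zero

theorem norm_lam (f : A →* ℂ) (a : A) : ‖f a‖ = 1 :=
  Complex.norm_eq_one_of_pow_eq_one (n := orderOf a)
    (by rw [← map_pow, pow_orderOf_eq_one, map_one]) (orderOf_pos a).ne'

omit [Finite A] in
theorem monoChar_add (lam : ι → (A →* ℂ)) (m m' : ι → ℤ) :
    monoChar lam (m + m') = monoChar lam m * monoChar lam m' := by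
  ext a
  simp [monoChar, zpow_add₀ (lam_ne_zero _ a), Finset.prod_mul_distrib]

/-- The exponent vectors of the invariant Laurent monomials. -/
noncomputable def relations (lam : ι → (A →* ℂ)) : AddSubgroup (ι → ℤ) where
  carrier := {m | monoChar lam m = 1}
  add_mem' {m m'} hm hm' := by
    simp only [Set.mem_ofPred_eq] at *
    rw [monoChar_add, hm, hm', one_mul]
  zero_mem' := by ext a; simp [monoChar]
  neg_mem' {m} hm := by
    simp only [Set.mem_ofPred_eq] at *
    ext a
    have := DFunLike.congr_fun hm a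
    simp [monoChar, Finset.prod_inv_distrib] at this ⊢
    exact this

omit [Finite A] in
theorem mem_relations (lam : ι → (A →* ℂ)) (m : ι → ℤ) :
    m ∈ relations lam ↔ ∀ a, ∏ i, lam i a ^ m i = 1 := by
  constructor
  · intro h a
    exact DFunLike.congr_fun (h : monoChar lam m = 1) a
  · intro h
    ext a
    exact h a

theorem one_add_sq_div {w : ℂ} (hw : ‖w‖ = 1) :
    ((1 + w) ^ 2 / w : ℂ) = ((4 - ‖w - 1‖ ^ 2 : ℝ) : ℂ) := by
  have h : w * (starRingEnd ℂ) w = 1 := by
    rw [Complex.mul_conj, Complex.normSq_eq_norm_sq, hw]; simp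
  have hn : ((‖w - 1‖ ^ 2 : ℝ) : ℂ) = (w - 1) * (starRingEnd ℂ) (w - 1) := by
    rw [Complex.mul_conj, Complex.normSq_eq_norm_sq]
  have hw0 : w ≠ 0 := fun h0 => by simp [h0] at hw
  rw [Complex.ofReal_sub, hn, map_sub, map_one, div_eq_iff hw0]
  push_cast
  linear_combination (w - 1) * h

theorem binom_expansion {w : ℂ} (hw : w ≠ 0) (K : ℕ) :
    ((1 + w) ^ 2 / w) ^ K =
      ∑ j : Fin (2 * K + 1), ((2 * K).choose j : ℂ) * w ^ ((j : ℤ) - (K : ℤ)) := by
  rw [div_pow, ← pow_mul, add_comm (1 : ℂ) w, add_pow, div_eq_iff (pow_ne_zero _ hw),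
    Finset.sum_mul, Finset.sum_range]
  refine Finset.sum_congr rfl fun j _ => ?_
  rw [one_pow, mul_one, zpow_sub₀ hw, zpow_natCast, zpow_natCast]
  field_simp

theorem exists_fejer_exponent (d : ℕ) {c : ℝ} (hc : c < 1) (hc0 : 0 ≤ c) :
    ∃ K : ℕ, (2 * K + 1 : ℝ) ^ d * c ^ K < 1 := by
  have ht := (tendsto_pow_const_mul_const_pow_of_lt_one d hc0 hc).const_mul ((3 : ℝ) ^ d)
  rw [mul_zero] at ht
  obtain ⟨K, hK, hK1⟩ :=
    ((ht.eventually_lt_const zero_lt_one).and (Filter.eventually_ge_atTop 1)).exists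
  refine ⟨K, lt_of_le_of_lt ?_ hK⟩
  rw [← mul_assoc, ← mul_pow]
  gcongr
  have : (1 : ℝ) ≤ K := by exact_mod_cast hK1
  linarith

/-- Fejér kernel approximation: a finite subgroup of the torus whose bounded relations are
integral at `h` has an element close to `h`. -/
theorem exists_near (ι : Type*) [Fintype ι] {δ : ℝ} (hδ : 0 < δ) :
    ∃ K : ℕ, ∀ (A : Type) [CommGroup A] [Finite A] (lam : ι → (A →* ℂ)) (h : ι → ℝ),
      (∀ m ∈ relations lam, (∀ i, |m i| ≤ K) → ∃ z : ℤ, ∑ i, (m i : ℝ) * h i = z) →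
      ∃ a : A, ∀ i,
        ‖lam i a * Complex.exp (-(2 * Real.pi * h i : ℝ) * Complex.I) - 1‖ < δ := by
  classical
  set c : ℝ := max 0 (1 - δ ^ 2 / 4) with hc
  have hc1 : c < 1 := max_lt one_pos (by nlinarith)
  obtain ⟨K, hK⟩ := exists_fejer_exponent (Fintype.card ι) hc1 (le_max_left _ _)
  refine ⟨K, fun A _ _ lam h hh => ?_⟩
  have := Fintype.ofFinite A
  by_contra hbad
  push Not at hbad
  set u : ι → ℂ := fun i => Complex.exp (-(2 * Real.pi * h i : ℝ) * Complex.I) with hu
  have hun : ∀ i, ‖u i‖ = 1 := fun i => by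
    simp only [hu]; rw [← Complex.ofReal_neg]; exact Complex.norm_exp_ofReal_mul_I _
  set w : A → ι → ℂ := fun a i => lam i a * u i with hw
  have hwn : ∀ a i, ‖w a i‖ = 1 := fun a i => by simp [hw, norm_lam, hun]
  let F : A → ℝ := fun a => ∏ i, (4 - ‖w a i - 1‖ ^ 2) ^ K
  let mJ : (ι → Fin (2 * K + 1)) → ι → ℤ := fun j i => (j i : ℤ) - (K : ℤ)
  let coef : (ι → Fin (2 * K + 1)) → ℕ := fun j => ∏ i, (2 * K).choose (j i)
  have hF : ∀ a, (F a : ℂ) = ∑ j : ι → Fin (2 * K + 1), (coef j : ℂ) *
      ((∏ i, u i ^ mJ j i) * monoChar lam (mJ j) a) := by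
    intro a
    have h1 : (F a : ℂ) =
        ∏ i, ∑ l : Fin (2 * K + 1), ((2 * K).choose l : ℂ) * w a i ^ ((l : ℤ) - (K : ℤ)) := by
      simp only [F, Complex.ofReal_prod, Complex.ofReal_pow]
      refine Finset.prod_congr rfl fun i _ => ?_
      rw [← one_add_sq_div (hwn a i)]
      exact binom_expansion (by intro h0; simpa [h0] using hwn a i) K
    rw [h1, Fintype.prod_sum]
    refine Finset.sum_congr rfl fun j _ => ?_
    simp only [coef, mJ, monoChar, MonoidHom.coe_mk, OneHom.coe_mk, Nat.cast_prod]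
    rw [← Finset.prod_mul_distrib, ← Finset.prod_mul_distrib]
    refine Finset.prod_congr rfl fun i _ => ?_
    rw [hw, mul_zpow]
    ring
  have hterm : ∀ j, (∏ i, u i ^ mJ j i) * ∑ a, monoChar lam (mJ j) a =
      ((if mJ j ∈ relations lam then (Fintype.card A : ℝ) else 0 : ℝ) : ℂ) := by
    intro j
    rw [sum_hom_units]
    by_cases hj : mJ j ∈ relations lam
    · rw [if_pos hj, if_pos (show monoChar lam (mJ j) = 1 from hj)]
      obtain ⟨z, hz⟩ := hh _ hj fun i => abs_le.2 (by
        have := (j i).isLt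
        constructor <;> simp only [mJ] <;> omega)
      have hu1 : ∏ i, u i ^ mJ j i = 1 := by
        simp only [hu, ← Complex.exp_int_mul, ← Complex.exp_sum]
        rw [Complex.exp_eq_one_iff]
        refine ⟨-z, ?_⟩
        have hz' : (∑ i, (mJ j i : ℂ) * (h i : ℂ)) = (z : ℂ) := by exact_mod_cast hz
        push_cast
        rw [← hz', ← Finset.sum_neg_distrib, Finset.sum_mul]
        exact Finset.sum_congr rfl fun i _ => by ring
      rw [hu1, one_mul]
      simp
    · rw [if_neg hj, if_neg (show ¬ monoChar lam (mJ j) = 1 from hj)]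
      simp
  have hsum : ∑ a, F a = ∑ j, (coef j : ℝ) *
      (if mJ j ∈ relations lam then (Fintype.card A : ℝ) else 0) := by
    apply Complex.ofReal_injective
    simp only [Complex.ofReal_sum, Complex.ofReal_mul, hF, Complex.ofReal_natCast]
    rw [Finset.sum_comm]
    refine Finset.sum_congr rfl fun j _ => ?_
    rw [← hterm j, Finset.mul_sum, Finset.mul_sum]
  let j₀ : ι → Fin (2 * K + 1) := fun _ => ⟨K, by omega⟩
  have hj₀ : mJ j₀ = 0 := by funext i; simp [mJ, j₀]
  have hlow : ((2 * K).choose K : ℝ) ^ Fintype.card ι * (Fintype.card A : ℝ) ≤ ∑ a, F a := by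
    rw [hsum]
    refine le_of_eq_of_le ?_ (Finset.single_le_sum
      (fun j _ => mul_nonneg (Nat.cast_nonneg _) (by split <;> simp)) (Finset.mem_univ j₀))
    rw [hj₀, if_pos (zero_mem _)]
    simp [coef, j₀]
  have hup : ∀ a, F a ≤ ((4 : ℝ) ^ K) ^ Fintype.card ι * c ^ K := by
    intro a
    obtain ⟨i, hi⟩ := hbad a
    have hq : ∀ l, 0 ≤ 1 - ‖w a l - 1‖ ^ 2 / 4 ∧ 1 - ‖w a l - 1‖ ^ 2 / 4 ≤ 1 := fun l => by
      have h2 : ‖w a l - 1‖ ≤ 2 := (norm_sub_le _ _).trans (by rw [hwn, norm_one]; norm_num)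
      have h0 := norm_nonneg (w a l - 1)
      constructor <;> nlinarith
    have hFa : F a = ((4 : ℝ) ^ K) ^ Fintype.card ι * (∏ l, (1 - ‖w a l - 1‖ ^ 2 / 4)) ^ K := by
      rw [← Finset.prod_pow, ← Finset.card_univ, ← Finset.prod_const, ← Finset.prod_mul_distrib]
      refine Finset.prod_congr rfl fun l _ => ?_
      rw [← mul_pow]; ring
    rw [hFa]
    have hp0 : 0 ≤ ∏ l, (1 - ‖w a l - 1‖ ^ 2 / 4) := Finset.prod_nonneg fun l _ => (hq l).1
    gcongr
    rw [Finset.prod_eq_mul_prod_sdiff_singleton_of_mem (Finset.mem_univ i)]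
    calc _ ≤ (1 - ‖w a i - 1‖ ^ 2 / 4) * 1 := by
          refine mul_le_mul_of_nonneg_left ?_ (hq i).1
          exact Finset.prod_le_one (fun l _ => (hq l).1) (fun l _ => (hq l).2)
      _ ≤ c := by
          rw [mul_one]
          refine le_trans ?_ (le_max_right _ _)
          have h3 : δ ^ 2 ≤ ‖w a i - 1‖ ^ 2 := pow_le_pow_left₀ hδ.le hi 2
          linarith
  have hcardA : (0 : ℝ) < Fintype.card A := by exact_mod_cast Fintype.card_pos
  have h1 : ((2 * K).choose K : ℝ) ^ Fintype.card ι ≤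
      ((4 : ℝ) ^ K) ^ Fintype.card ι * c ^ K := by
    refine le_of_mul_le_mul_right ?_ hcardA
    refine hlow.trans ((Finset.sum_le_card_nsmul _ _ _ fun a _ => hup a).trans_eq ?_)
    rw [nsmul_eq_mul, Finset.card_univ, mul_comm]
  have h2 : (4 : ℝ) ^ K ≤ (2 * K + 1 : ℝ) * ((2 * K).choose K : ℝ) := by
    have := Nat.four_pow_le_two_mul_add_one_mul_central_binom K
    exact_mod_cast this
  have hA : (0 : ℝ) < ((4 : ℝ) ^ K) ^ Fintype.card ι := by positivity
  have h4 : ((4 : ℝ) ^ K) ^ Fintype.card ι ≤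
      ((4 : ℝ) ^ K) ^ Fintype.card ι * ((2 * K + 1 : ℝ) ^ Fintype.card ι * c ^ K) :=
    calc ((4 : ℝ) ^ K) ^ Fintype.card ι
        ≤ ((2 * K + 1 : ℝ) * ((2 * K).choose K : ℝ)) ^ Fintype.card ι := by gcongr
      _ ≤ (2 * K + 1 : ℝ) ^ Fintype.card ι * (((4 : ℝ) ^ K) ^ Fintype.card ι * c ^ K) := by
          rw [mul_pow]; gcongr
      _ = _ := by ring
  have := mul_lt_mul_of_pos_left hK hA
  linarith

/-- Gordan alternative for a finitely generated group of integer vectors. -/
theorem gordan [Nonempty ι] (S : Finset (ι → ℤ)) :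
    (∃ m ∈ AddSubgroup.closure (S : Set (ι → ℤ)), m ≠ 0 ∧ ∀ i, 0 ≤ m i) ∨
      ∃ h : ι → ℝ, (∀ i, 0 < h i) ∧ ∀ m ∈ S, ∑ i, (m i : ℝ) * h i = 0 := by
  classical
  let cast : (ι → ℤ) → (ι → ℝ) := fun m i => (m i : ℝ)
  set W : Submodule ℝ (ι → ℝ) := Submodule.span ℝ (Set.range fun s : S => cast s) with hW
  by_cases hdis : Disjoint (stdSimplex ℝ ι) (W : Set (ι → ℝ))
  · right
    obtain ⟨f, u, v, hfu, huv, hvf⟩ := geometric_hahn_banach_compact_closed
      (convex_stdSimplex ℝ ι) (isCompact_stdSimplex ℝ ι) W.convex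
      W.closed_of_finiteDimensional hdis
    have hv0 : v < 0 := by simpa using hvf 0 W.zero_mem
    have hW0 : ∀ x ∈ W, f x = 0 := by
      intro x hx
      by_contra hne
      have := hvf (((v - 1) / f x) • x) (W.smul_mem _ hx)
      rw [map_smul, smul_eq_mul, div_mul_cancel₀ _ hne] at this
      linarith
    refine ⟨fun i => -f (Pi.single i 1), fun i => ?_, fun m hm => ?_⟩
    · have := hfu _ (single_mem_stdSimplex ℝ i)
      simp only [Left.neg_pos_iff]
      linarith
    · have hm0 : f (cast m) = 0 := hW0 _ (Submodule.subset_span ⟨⟨m, hm⟩, rfl⟩)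
      have hx : cast m = ∑ i, (m i : ℝ) • Pi.single i (1 : ℝ) := by
        funext k; simp [cast, Finset.sum_apply, Pi.single_apply]
      rw [hx, map_sum] at hm0
      simp only [map_smul, smul_eq_mul] at hm0
      rw [← neg_eq_zero.2 hm0, ← Finset.sum_neg_distrib]
      exact Finset.sum_congr rfl fun i _ => by ring
  · left
    obtain ⟨y, hy, hyW⟩ := Set.not_disjoint_iff.1 hdis
    obtain ⟨c, hc⟩ := (Submodule.mem_span_range_iff_exists_fun ℝ).1 hyW
    let V : Submodule ℚ ℝ := Submodule.span ℚ (Set.range c)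
    have : FiniteDimensional ℚ V := FiniteDimensional.span_of_finite ℚ (Set.finite_range c)
    let b := Module.finBasis ℚ V
    let q : S → Fin (Module.finrank ℚ V) → ℚ :=
      fun s => b.repr ⟨c s, Submodule.subset_span ⟨s, rfl⟩⟩
    have hq : ∀ s, c s = ∑ l, (q s l : ℝ) * (b l : ℝ) := fun s => by
      have := congrArg (fun x : V => (x : ℝ)) (b.sum_repr ⟨c s, Submodule.subset_span ⟨s, rfl⟩⟩)
      simp only [Submodule.coe_sum, SetLike.val_smul, Rat.smul_def] at this
      exact this.symm
    let Q : ι → Fin (Module.finrank ℚ V) → ℚ := fun i l => ∑ s : S, q s l * ((s : ι → ℤ) i : ℚ)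
    have hy' : ∀ i, y i = ∑ l, (Q i l : ℝ) * (b l : ℝ) := by
      intro i
      rw [← hc]
      simp only [Finset.sum_apply, Pi.smul_apply, smul_eq_mul, Q, Rat.cast_sum, Rat.cast_mul,
        Rat.cast_intCast, Finset.sum_mul, hq, cast]
      rw [Finset.sum_comm]
      exact Finset.sum_congr rfl fun l _ => Finset.sum_congr rfl fun s _ => by ring
    have hzero : ∀ i, y i = 0 → ∀ l, Q i l = 0 := by
      intro i hi
      refine Fintype.linearIndependent_iff.1 b.linearIndependent (Q i) (Subtype.ext ?_)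
      rw [Submodule.coe_zero, ← hi, hy' i, Submodule.coe_sum]
      simp [Rat.smul_def]
    let U : Set (Fin (Module.finrank ℚ V) → ℝ) :=
      ⋂ i ∈ univ.filter (fun i => 0 < y i), {t | 0 < ∑ l, (Q i l : ℝ) * t l}
    have hUo : IsOpen U := isOpen_biInter_finset fun i _ =>
      isOpen_lt continuous_const (by fun_prop)
    have hUm : (fun l => (b l : ℝ)) ∈ U := by
      simp only [U, Set.mem_iInter, Finset.mem_filter]
      intro i hi
      show 0 < ∑ l, (Q i l : ℝ) * (b l : ℝ)
      rw [← hy' i]; exact hi.2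
    obtain ⟨η, hη, hball⟩ := Metric.isOpen_iff.1 hUo _ hUm
    choose t ht using fun l => exists_rat_near (b l : ℝ) hη
    have htU : (fun l => (t l : ℝ)) ∈ U := hball ((dist_pi_lt_iff hη).2 fun l => by
      rw [Real.dist_eq, abs_sub_comm]; exact ht l)
    let c' : S → ℚ := fun s => ∑ l, q s l * t l
    let D : ℕ := ∏ s : S, (c' s).den
    let e : S → ℤ := fun s => (c' s).num * (∏ s' ∈ univ.erase s, (c' s').den : ℕ)
    have he : ∀ s, (e s : ℚ) = c' s * D := fun s => by
      have hD : D = (c' s).den * ∏ s' ∈ univ.erase s, (c' s').den :=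
        (Finset.mul_prod_erase _ _ (mem_univ s)).symm
      rw [hD]
      push_cast [e]
      rw [← mul_assoc, Rat.mul_den_eq_num]
    let m : ι → ℤ := ∑ s : S, e s • (s : ι → ℤ)
    have hm : ∀ i, (m i : ℝ) = (D : ℝ) * ∑ l, (Q i l : ℝ) * (t l : ℝ) := by
      intro i
      have : (m i : ℚ) = (D : ℚ) * ∑ l, Q i l * t l := by
        simp only [m, Finset.sum_apply, Pi.smul_apply, smul_eq_mul, Int.cast_sum, Int.cast_mul, he,
          Q, c', Finset.sum_mul, Finset.mul_sum]
        rw [Finset.sum_comm]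
        exact Finset.sum_congr rfl fun l _ => Finset.sum_congr rfl fun s _ => by ring
      exact_mod_cast this
    have hD : (0 : ℝ) < D := by
      have : 0 < D := Finset.prod_pos fun s _ => (c' s).den_pos
      exact_mod_cast this
    have hpos : ∀ i, 0 < y i → (0 : ℝ) < m i := fun i hi => by
      rw [hm]
      refine mul_pos hD ?_
      simp only [U, Set.mem_iInter, Finset.mem_filter] at htU
      exact htU i ⟨mem_univ i, hi⟩
    refine ⟨m, AddSubgroup.sum_mem _ fun s _ =>
      AddSubgroup.zsmul_mem _ (AddSubgroup.subset_closure s.2) _, ?_, fun i => ?_⟩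
    · intro h0
      obtain ⟨i, -, hi⟩ := Finset.exists_ne_zero_of_sum_ne_zero
        (s := univ) (f := y) (by rw [hy.2]; norm_num)
      have := hpos i (lt_of_le_of_ne (hy.1 i) (Ne.symm hi))
      simp [h0] at this
    · rcases (hy.1 i).eq_or_lt' with h | h
      · have h0 := hm i
        simp [hzero i h] at h0
        exact h0.ge
      · exact_mod_cast (hpos i h).le

theorem fract_arg_exp {v : ℝ} (h0 : 0 ≤ v) (h1 : v < 1) :
    Int.fract (Complex.arg (Complex.exp ((2 * Real.pi * v : ℝ) * Complex.I)) / (2 * Real.pi))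
      = v := by
  set z := Complex.exp ((2 * Real.pi * v : ℝ) * Complex.I) with hz
  have hn : ‖z‖ = 1 := Complex.norm_exp_ofReal_mul_I _
  have := Complex.norm_mul_exp_arg_mul_I z
  rw [hn, Complex.ofReal_one, one_mul, hz, Complex.exp_eq_exp_iff_exists_int] at this
  obtain ⟨k, hk⟩ := this
  rw [← hz] at hk
  have hk' := congrArg Complex.im hk
  simp at hk'
  have : Complex.arg z / (2 * Real.pi) = v + k := by
    rw [div_eq_iff (by positivity)]
    linarith
  rw [this, Int.fract_add_intCast, Int.fract_eq_self.2 ⟨h0, h1⟩]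

theorem abs_arg_le {z : ℂ} (hz : ‖z‖ = 1) : |Complex.arg z| ≤ Real.pi / 2 * ‖z - 1‖ := by
  have e := Complex.norm_mul_exp_arg_mul_I z
  rw [hz, Complex.ofReal_one, one_mul, mul_comm] at e
  conv_rhs => rw [← e, Complex.norm_exp_I_mul_ofReal_sub_one, Real.norm_eq_abs, abs_mul, abs_two]
  have hb : |Complex.arg z / 2| ≤ Real.pi / 2 := by
    rw [abs_div, abs_two]; gcongr; exact Complex.abs_arg_le_pi z
  have hs := Real.mul_abs_le_abs_sin hb
  rw [abs_div, abs_two, div_mul_eq_mul_div, div_le_iff₀ Real.pi_pos] at hs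
  nlinarith

/-- A small nonzero nonnegative relation exists. -/
theorem exists_nonneg_relation (ι : Type*) [Fintype ι] [Nonempty ι] {ε : ℝ} (hε : 0 < ε) :
    ∃ C : ℕ, ∀ (A : Type) [CommGroup A] [Finite A] (lam : ι → (A →* ℂ)),
      (∀ a, (∃ i, lam i a ≠ 1) → ε ≤ diagAge lam a) →
      ∃ m ∈ relations lam, m ≠ 0 ∧ ∀ i, 0 ≤ m i ∧ m i ≤ C := by
  classical
  let cast : (ι → ℤ) → (ι → ℝ) := fun m i => (m i : ℝ)
  let rk : Finset (ι → ℤ) → ℕ := fun S => Module.finrank ℝ (Submodule.span ℝ (cast '' ↑S))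
  suffices key : ∀ j : ℕ, ∃ C : ℕ, ∀ (A : Type) [CommGroup A] [Finite A] (lam : ι → (A →* ℂ)),
      (∀ a, (∃ i, lam i a ≠ 1) → ε ≤ diagAge lam a) →
      (∃ m ∈ relations lam, m ≠ 0 ∧ ∀ i, 0 ≤ m i ∧ m i ≤ C) ∨
      (∃ S : Finset (ι → ℤ), (∀ m ∈ S, m ∈ relations lam ∧ ∀ i, |m i| ≤ C) ∧ j ≤ rk S) by
    obtain ⟨C, hC⟩ := key (Fintype.card ι + 1)
    refine ⟨C, fun A _ _ lam hlam => (hC A lam hlam).resolve_right ?_⟩
    rintro ⟨S, -, hS⟩
    have h2 := Submodule.finrank_le (Submodule.span ℝ (cast '' ↑S))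
    simp only [Module.finrank_fintype_fun_eq_card] at h2
    simp only [rk] at hS
    omega
  intro j
  induction j with
  | zero => exact ⟨0, fun A _ _ lam _ => Or.inr ⟨∅, by simp, Nat.zero_le _⟩⟩
  | succ j ih =>
    obtain ⟨C, hC⟩ := ih
    have step : ∀ S : Finset (ι → ℤ), ∃ B : ℕ,
        ∀ (A : Type) [CommGroup A] [Finite A] (lam : ι → (A →* ℂ)),
        (∀ a, (∃ i, lam i a ≠ 1) → ε ≤ diagAge lam a) → (∀ m ∈ S, m ∈ relations lam) →
        (∃ m ∈ relations lam, m ≠ 0 ∧ ∀ i, 0 ≤ m i ∧ m i ≤ B) ∨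
        (∃ m ∈ relations lam, (∀ i, |m i| ≤ B) ∧ cast m ∉ Submodule.span ℝ (cast '' ↑S)) := by
      intro S
      rcases gordan S with ⟨m, hm, hm0, hmn⟩ | ⟨h, hpos, horth⟩
      · refine ⟨∑ i, (m i).toNat, fun A _ _ lam _ hS => Or.inl ⟨m, ?_, hm0, fun i => ⟨hmn i, ?_⟩⟩⟩
        · exact (AddSubgroup.closure_le _).2 hS hm
        · have := Finset.single_le_sum (f := fun l => (m l).toNat)
            (fun l _ => Nat.zero_le _) (mem_univ i)
          have := hmn i
          omega
      · set s : ℝ := ∑ i, h i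
        have hs : 0 < s := Finset.sum_pos (fun i _ => hpos i) univ_nonempty
        set h' : ι → ℝ := fun i => h i * (min ε 1 / 2 / s) with hh'
        have hmin : 0 < min ε 1 := lt_min hε one_pos
        have hpos' : ∀ i, 0 < h' i := fun i => by
          have := hpos i
          simp only [hh']; positivity
        have hsum' : ∑ i, h' i = min ε 1 / 2 := by
          simp only [hh', ← Finset.sum_mul]; field_simp; rfl
        obtain ⟨i₁, -, hi₁⟩ := Finset.exists_min_image univ h' univ_nonempty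
        obtain ⟨K, hK⟩ := exists_near ι (hpos' i₁)
        refine ⟨K, fun A _ _ lam hlam hS => Or.inr ?_⟩
        by_contra hno
        push Not at hno
        obtain ⟨a, ha⟩ := hK A lam h' (fun m hm hmK => by
          refine ⟨0, ?_⟩
          have hspan : ∀ x ∈ Submodule.span ℝ (cast '' ↑S), ∑ i, x i * h' i = 0 := by
            intro x hx
            induction hx using Submodule.span_induction with
            | mem x hx =>
              obtain ⟨m, hm, rfl⟩ := hx
              simp only [hh', cast, ← mul_assoc, ← Finset.sum_mul, horth m hm, zero_mul]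
            | zero => simp
            | add x y _ _ hx hy => simp [add_mul, Finset.sum_add_distrib, hx, hy]
            | smul r x _ hx => simp [mul_assoc, ← Finset.mul_sum, hx]
          simpa using hspan _ (hno m hm hmK))
        set w : ι → ℂ := fun i => lam i a * Complex.exp (-(2 * Real.pi * h' i : ℝ) * Complex.I)
        have hwn : ∀ i, ‖w i‖ = 1 := fun i => by
          simp only [w, norm_mul, norm_lam, one_mul]
          rw [← Complex.ofReal_neg]; exact Complex.norm_exp_ofReal_mul_I _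
        set v : ι → ℝ := fun i => h' i + Complex.arg (w i) / (2 * Real.pi) with hv
        have hlv : ∀ i, lam i a = Complex.exp ((2 * Real.pi * v i : ℝ) * Complex.I) := by
          intro i
          have e := Complex.norm_mul_exp_arg_mul_I (w i)
          rw [hwn, Complex.ofReal_one, one_mul] at e
          have : ((2 * Real.pi * v i : ℝ) : ℂ) * Complex.I =
              (2 * Real.pi * h' i : ℝ) * Complex.I + Complex.arg (w i) * Complex.I := by
            rw [← add_mul, ← Complex.ofReal_add, hv]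
            congr 2
            field_simp
          rw [this, Complex.exp_add, e]
          simp only [w]
          rw [mul_left_comm, ← Complex.exp_add]
          simp
        have hclose : ∀ i, |v i - h' i| < h' i / 2 := by
          intro i
          have h1 := abs_arg_le (hwn i)
          have h2 : ‖w i - 1‖ < h' i := lt_of_lt_of_le (ha i) (hi₁ i (mem_univ i))
          simp only [hv, add_sub_cancel_left, abs_div, abs_mul, abs_two,
            abs_of_pos Real.pi_pos]
          rw [div_lt_iff₀ (by positivity)]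
          nlinarith [Real.pi_pos, norm_nonneg (w i - 1)]
        have hv0 : ∀ i, 0 < v i := fun i => by
          have := abs_lt.1 (hclose i); linarith [hpos' i]
        have hvle : ∀ i, v i < 2 * h' i := fun i => by
          have := abs_lt.1 (hclose i); linarith [hpos' i]
        have hvs : ∑ i, v i < min ε 1 := by
          calc ∑ i, v i < ∑ i, 2 * h' i := Finset.sum_lt_sum_of_nonempty univ_nonempty fun i _ => hvle i
            _ = min ε 1 := by rw [← Finset.mul_sum, hsum']; ring
        have hv1 : ∀ i, v i < 1 := fun i =>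
          lt_of_le_of_lt (Finset.single_le_sum (fun l _ => (hv0 l).le) (mem_univ i))
            (hvs.trans_le (min_le_right _ _))
        have hne : ∃ i, lam i a ≠ 1 := by
          refine ⟨i₁, fun h1 => ?_⟩
          have := fract_arg_exp (hv0 i₁).le (hv1 i₁)
          rw [← hlv, h1] at this
          simp at this
          linarith [hv0 i₁]
        have := hlam a hne
        simp only [diagAge, hlv, fract_arg_exp (hv0 _).le (hv1 _)] at this
        linarith [min_le_left ε 1]
    choose B hB using step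
    let box : Finset (ι → ℤ) := Fintype.piFinset fun _ => Finset.Icc (-(C : ℤ)) C
    refine ⟨C + ∑ S ∈ box.powerset, B S, fun A _ _ lam hlam => ?_⟩
    set C' := C + ∑ S ∈ box.powerset, B S
    rcases hC A lam hlam with ⟨m, hm, hm0, hmb⟩ | ⟨S, hS, hjS⟩
    · exact Or.inl ⟨m, hm, hm0, fun i => ⟨(hmb i).1, by have := (hmb i).2; omega⟩⟩
    · have hSb : S ∈ box.powerset := Finset.mem_powerset.2 fun m hm =>
        Fintype.mem_piFinset.2 fun i => Finset.mem_Icc.2 (abs_le.1 ((hS m hm).2 i))
      have hBle : B S ≤ C' := (Finset.single_le_sum (fun l _ => Nat.zero_le (B l)) hSb).trans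
        (Nat.le_add_left _ _)
      rcases hB S A lam hlam (fun m hm => (hS m hm).1) with ⟨m, hm, hm0, hmb⟩ | ⟨m, hm, hmb, hms⟩
      · exact Or.inl ⟨m, hm, hm0, fun i => ⟨(hmb i).1, by have := (hmb i).2; omega⟩⟩
      · refine Or.inr ⟨insert m S, ?_, ?_⟩
        · intro m' hm'
          rcases Finset.mem_insert.1 hm' with rfl | hm'
          · exact ⟨hm, fun i => (hmb i).trans (by exact_mod_cast hBle)⟩
          · exact ⟨(hS m' hm').1, fun i => ((hS m' hm').2 i).trans (by omega)⟩
        · refine Nat.succ_le_of_lt (lt_of_le_of_lt hjS (Submodule.finrank_lt_finrank_of_lt ?_))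
          rw [Finset.coe_insert, Set.image_insert_eq]
          refine lt_of_le_of_ne (Submodule.span_mono (Set.subset_insert _ _)) fun heq => hms ?_
          rw [heq]
          exact Submodule.subset_span (Set.mem_insert _ _)

omit [Finite A] in
/-- Extension of relations from a set of coordinates. -/
theorem extend_relation [Finite A] (lam : ι → (A →* ℂ)) (J : Finset ι) (m : ι → ℤ)
    (hK : ∀ a, (∀ i ∉ J, lam i a = 1) → ∏ i, lam i a ^ m i = 1) :
    ∃ m' ∈ relations lam, ∀ i ∈ J, m' i = m i := by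
  classical
  have := Fintype.ofFinite A
  set N := Fintype.card A with hN
  have hNpos : 0 < N := Fintype.card_pos
  let box : Finset (ι → ℕ) :=
    Fintype.piFinset fun i => if i ∈ J then {0} else Finset.range N
  have hsum : ∀ a, (∑ e ∈ box, ∏ i, lam i a ^ e i) =
      if ∀ i ∉ J, lam i a = 1 then (box.card : ℂ) else 0 := by
    intro a
    split_ifs with ha
    · rw [Finset.card_eq_sum_ones, Nat.cast_sum, Nat.cast_one]
      refine Finset.sum_congr rfl fun e he => Finset.prod_eq_one fun i _ => ?_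
      by_cases hi : i ∈ J
      · have := Fintype.mem_piFinset.1 he i
        rw [if_pos hi, Finset.mem_singleton] at this
        simp [this]
      · simp [ha i hi]
    · rw [← Finset.prod_univ_sum]
      push Not at ha
      obtain ⟨i, hi, hne⟩ := ha
      refine Finset.prod_eq_zero (mem_univ i) ?_
      rw [if_neg hi, geom_sum_eq hne]
      simp [← map_pow, hN]
  let nz : (ι → ℕ) → ι → ℤ := fun e i => (e i : ℤ)
  have hmul : ∀ e a, monoChar lam (m + nz e) a =
      (∏ i, lam i a ^ m i) * ∏ i, lam i a ^ e i := by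
    intro e a
    rw [monoChar_add]
    simp [monoChar, nz]
  have hne : ∑ e ∈ box, ∑ a, monoChar lam (m + nz e) a ≠ 0 := by
    rw [Finset.sum_comm]
    simp only [hmul, ← Finset.mul_sum, hsum, mul_ite, mul_zero]
    rw [← Finset.sum_filter]
    rw [Finset.sum_congr rfl (fun a ha => by rw [hK a (Finset.mem_filter.1 ha).2, one_mul]),
      Finset.sum_const, nsmul_eq_mul]
    refine mul_ne_zero ?_ ?_
    · rw [Nat.cast_ne_zero]
      exact Finset.card_ne_zero_of_mem (a := (1 : A)) (by simp)
    · rw [Nat.cast_ne_zero, Finset.card_ne_zero, Fintype.piFinset_nonempty]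
      intro i; split <;> simp [hNpos.ne']
  obtain ⟨e, he, hne'⟩ := Finset.exists_ne_zero_of_sum_ne_zero hne
  refine ⟨m + nz e, ?_, fun i hi => ?_⟩
  · by_contra h
    exact hne' (sum_hom_units_eq_zero _ h)
  · have := Fintype.mem_piFinset.1 he i
    rw [if_pos hi, Finset.mem_singleton] at this
    simp [nz, this]

/-- Exponents of a Newton polyhedron having `n • 1` in its interior. -/
theorem exists_exponents (ι : Type*) [Fintype ι] {ε : ℝ} (hε : 0 < ε) :
    ∃ n : ℕ, 2 ≤ n ∧ ∀ (A : Type) [CommGroup A] [Finite A] (lam : ι → (A →* ℂ)),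
      (∀ a, (∃ i, lam i a ≠ 1) → ε ≤ diagAge lam a) →
      ∃ (L : ℕ) (e : Fin (L + 1) → ι → ℕ),
        (∀ j a, ∏ i, lam i a ^ e j i = (∏ i, lam i a) ^ n) ∧
        ∀ i, ∑ j, e j i < (L + 1) * n := by
  classical
  have hC : ∀ J : Finset ι, ∃ C : ℕ, J.Nonempty →
      ∀ (A : Type) [CommGroup A] [Finite A] (lam : J → (A →* ℂ)),
      (∀ a, (∃ i, lam i a ≠ 1) → ε ≤ diagAge lam a) →
      ∃ m ∈ relations lam, m ≠ 0 ∧ ∀ i, 0 ≤ m i ∧ m i ≤ C := by
    intro J
    rcases J.eq_empty_or_nonempty with rfl | hJ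
    · exact ⟨0, by simp⟩
    · have : Nonempty J := hJ.to_subtype
      obtain ⟨C, hC⟩ := exists_nonneg_relation J hε
      exact ⟨C, fun _ => hC⟩
  choose C hC using hC
  set n := 2 + ∑ J, C J with hn
  refine ⟨n, Nat.le_add_right _ _, fun A _ _ lam hlam => ?_⟩
  suffices key : ∀ J : Finset ι, ∀ l : List (ι → ℤ), l ≠ [] →
      (∀ b ∈ l, b ∈ relations lam ∧ (∀ i, b i ≤ n) ∧ ∀ i ∈ J, b i = 0) →
      (∀ i ∉ J, 0 < l.sum i) →
      ∃ l' : List (ι → ℤ), l' ≠ [] ∧ (∀ b ∈ l', b ∈ relations lam ∧ ∀ i, b i ≤ n) ∧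
        ∀ i, 0 < l'.sum i by
    obtain ⟨l, hl, hmem, hpos⟩ := key univ [0] (by simp)
      (by simp [zero_mem]) (by simp)
    obtain ⟨L, hL⟩ := Nat.exists_eq_succ_of_ne_zero (by simpa using hl : l.length ≠ 0)
    let b : Fin (L + 1) → ι → ℤ := fun j => l[(j : ℕ)]'(by omega)
    have hb : ∀ j, b j ∈ l := fun j => List.getElem_mem _
    have hbsum : ∀ i, ∑ j, b j i = l.sum i := by
      intro i
      have e : (List.ofFn b) = l := List.ext_getElem (by simp [hL])
        (fun k h1 h2 => by rw [List.getElem_ofFn])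
      conv_rhs => rw [← e, List.sum_ofFn]
      simp
    refine ⟨L, fun j i => ((n : ℤ) - b j i).toNat, fun j a => ?_, fun i => ?_⟩
    · obtain ⟨hr, hle⟩ := hmem _ (hb j)
      have he : ∀ i, ((((n : ℤ) - b j i).toNat : ℕ) : ℤ) = (n : ℤ) - b j i := fun i =>
        Int.toNat_of_nonneg (by linarith [hle i])
      calc ∏ i, lam i a ^ ((n : ℤ) - b j i).toNat
          = ∏ i, (lam i a ^ n * (lam i a ^ b j i)⁻¹) := Finset.prod_congr rfl fun i _ => by
            rw [← zpow_natCast, he, zpow_sub₀ (lam_ne_zero _ a), zpow_natCast, div_eq_mul_inv]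
        _ = (∏ i, lam i a) ^ n := by
            rw [Finset.prod_mul_distrib, Finset.prod_inv_distrib, Finset.prod_pow,
              (mem_relations lam _).1 hr a, inv_one, mul_one]
    · have h1 : (((∑ j, ((n : ℤ) - b j i).toNat : ℕ)) : ℤ) = ((L + 1 : ℕ) : ℤ) * n - l.sum i := by
        rw [Nat.cast_sum, Finset.sum_congr rfl fun j _ =>
          Int.toNat_of_nonneg (by linarith [(hmem _ (hb j)).2 i]), Finset.sum_sub_distrib, hbsum]
        simp
      have := hpos i
      zify
      push_cast at h1 ⊢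
      linarith
  intro J
  induction J using Finset.strongInduction with
  | H J ih =>
    intro l hl hmem hpos
    rcases J.eq_empty_or_nonempty with rfl | hJ
    · exact ⟨l, hl, fun b hb => ⟨(hmem b hb).1, (hmem b hb).2.1⟩, fun i => hpos i (by simp)⟩
    let K : Subgroup A :=
      { carrier := {a | ∀ i ∉ J, lam i a = 1}
        mul_mem' := fun {a b} ha hb i hi => by rw [map_mul, ha i hi, hb i hi, one_mul]
        one_mem' := fun i _ => map_one _
        inv_mem' := fun {a} ha i hi => by
          have h1 := map_mul (lam i) a⁻¹ a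
          rw [inv_mul_cancel, map_one, ha i hi, mul_one] at h1
          exact h1.symm }
    have hlamK : ∀ a : K, (∃ i : J, (lam i).comp K.subtype a ≠ 1) →
        ε ≤ diagAge (fun i : J => (lam i).comp K.subtype) a := by
      rintro ⟨a, ha⟩ ⟨i, hi⟩
      refine (hlam a ⟨i, hi⟩).trans_eq ?_
      simp only [diagAge, MonoidHom.coe_comp, Subgroup.coe_subtype, Function.comp_apply]
      rw [← Finset.sum_subset (Finset.subset_univ J) fun l _ hl => by simp [ha l hl]]
      exact (Finset.sum_coe_sort J fun l => Int.fract (Complex.arg (lam l a) / (2 * Real.pi))).symm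
    obtain ⟨m, hm, hm0, hmb⟩ := hC J hJ K _ hlamK
    let mx : ι → ℤ := fun i => if h : i ∈ J then m ⟨i, h⟩ else 0
    obtain ⟨m', hm', hm'J⟩ := extend_relation lam J mx (by
      intro a ha
      have := (mem_relations _ m).1 hm ⟨a, ha⟩
      rw [← Finset.prod_subset (Finset.subset_univ J) fun l _ hl => by simp [mx, hl]]
      rw [← Finset.prod_coe_sort J]
      simpa [mx] using this)
    set t : ℤ := ∑ i, |m' i| with ht
    set y := l.sum with hy
    have hyr : y ∈ relations lam := AddSubgroup.list_sum_mem _ fun b hb => (hmem b hb).1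
    have hyJ : ∀ i ∈ J, y i = 0 := by
      intro i hi
      rw [hy, Pi.list_sum_apply]
      refine List.sum_eq_zero fun x hx => ?_
      obtain ⟨b, hb, rfl⟩ := List.mem_map.1 hx
      exact (hmem b hb).2.2 i hi
    have ht0 : 0 ≤ t := Finset.sum_nonneg fun i _ => abs_nonneg _
    set b : ι → ℤ := m' - t • y with hb
    have hbJ : ∀ i, ∀ hi : i ∈ J, b i = m ⟨i, hi⟩ := fun i hi => by
      simp [hb, hyJ i hi, hm'J i hi, mx, hi]
    have hbn : ∀ i, b i ≤ n := by
      intro i
      by_cases hi : i ∈ J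
      · rw [hbJ i hi]
        refine (hmb ⟨i, hi⟩).2.trans ?_
        have := Finset.single_le_sum (fun l _ => Nat.zero_le (C l)) (mem_univ J)
        omega
      · have h1 := hpos i hi
        have h2 : m' i ≤ t := (le_abs_self _).trans
          (Finset.single_le_sum (fun l _ => abs_nonneg (m' l)) (mem_univ i))
        have h3 : t ≤ t * y i := le_mul_of_one_le_right ht0 (by linarith)
        simp only [hb, Pi.sub_apply, Pi.smul_apply, smul_eq_mul]
        omega
    set T : ℕ := (∑ i, |b i|).toNat + 1 with hT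
    set J' := J.filter (fun i => b i = 0) with hJ'
    have hss : J' ⊂ J := by
      refine Finset.filter_ssubset.2 ?_
      obtain ⟨⟨i, hi⟩, hne⟩ := Function.ne_iff.1 hm0
      exact ⟨i, hi, by rw [hbJ i hi]; simpa using hne⟩
    refine ih J' hss (b :: (List.replicate T l).flatten) (List.cons_ne_nil _ _) ?_ ?_
    · intro x hx
      rcases List.mem_cons.1 hx with rfl | hx
      · refine ⟨sub_mem hm' (zsmul_mem hyr t), hbn, fun i hi => (Finset.mem_filter.1 hi).2⟩
      · obtain ⟨l₀, hl₀, hx⟩ := List.mem_flatten.1 hx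
        rw [List.eq_of_mem_replicate hl₀] at hx
        exact ⟨(hmem x hx).1, (hmem x hx).2.1,
          fun i hi => (hmem x hx).2.2 i (Finset.mem_filter.1 hi).1⟩
    · intro i hi
      have hs : (b :: (List.replicate T l).flatten).sum i = b i + T * y i := by
        simp [List.sum_flatten, List.map_replicate, List.sum_replicate, hy]
      rw [hs]
      by_cases hiJ : i ∈ J
      · have h0 : b i ≠ 0 := fun h => hi (Finset.mem_filter.2 ⟨hiJ, h⟩)
        have h1 : 0 ≤ b i := by rw [hbJ i hiJ]; exact (hmb ⟨i, hiJ⟩).1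
        rw [hyJ i hiJ, mul_zero, add_zero]
        omega
      · have h1 := hpos i hiJ
        have h2 : |b i| ≤ ∑ l, |b l| := Finset.single_le_sum (fun l _ => abs_nonneg (b l)) (mem_univ i)
        have h3 : (T : ℤ) ≤ (T : ℤ) * y i := le_mul_of_one_le_right (by positivity) (by linarith)
        have h4 : (∑ l, |b l|) < (T : ℤ) := by
          rw [hT, Nat.cast_succ, Int.toNat_of_nonneg (Finset.sum_nonneg fun l _ => abs_nonneg _)]
          omega
        have := neg_abs_le (b i)
        linarith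

end Vale.Agent.P283
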