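import Mathlib
import Vale.Agent.P283.Basic
import Vale.Agent.P283.Jordan
import Vale.Agent.P283.Lattice
import Vale.Agent.P283.Integral

/-! Klt complements for finite quotient singularities. -/

namespace Vale.Agent.P283

open MeasureTheory
open scoped ENNReal

abbrev GLC (d : ℕ) := Matrix.GeneralLinearGroup (Fin d) ℂ

/-- A finite abelian group of matrices has an eigenbasis. -/
theorem exists_eigenbasis {d : ℕ} {A : Type} [CommGroup A] [Finite A] (φ : A →* GLC d) :
    ∃ P : GLC d, ∀ a, ∃ μ : Fin d → ℂ,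
      ((P⁻¹ * φ a * P : GLC d) : Matrix (Fin d) (Fin d) ℂ) = Matrix.diagonal μ := by
  classical
  have := Fintype.ofFinite A
  have : Finite (A →* ℂˣ) := Nat.finite_of_card_ne_zero (by
    rw [CommGroup.card_monoidHom_of_hasEnoughRootsOfUnity]; exact Nat.card_pos.ne')
  have := Fintype.ofFinite (A →* ℂˣ)
  let act : A → (Fin d → ℂ) → (Fin d → ℂ) := fun a v => (φ a : Matrix (Fin d) (Fin d) ℂ).mulVec v
  let E : Set (Fin d → ℂ) := {v | ∀ a, ∃ μ : ℂ, act a v = μ • v}
  have hspan : Submodule.span ℂ E = ⊤ := by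
    rw [eq_top_iff]
    intro v _
    let w : (A →* ℂˣ) → (Fin d → ℂ) := fun χ => ∑ a, ((χ a⁻¹ : ℂˣ) : ℂ) • act a v
    have hw : ∀ χ, w χ ∈ E := by
      intro χ b
      refine ⟨((χ b : ℂˣ) : ℂ), ?_⟩
      simp only [w, act, Matrix.mulVec_sum, Matrix.mulVec_smul, Finset.smul_sum, smul_smul,
        Matrix.mulVec_mulVec, ← Units.val_mul, ← map_mul]
      rw [← Equiv.sum_comp (Equiv.mulLeft b) (fun a =>
        ((χ (b * a⁻¹) : ℂˣ) : ℂ) • ((φ a : GLC d) : Matrix (Fin d) (Fin d) ℂ).mulVec v)]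
      refine Finset.sum_congr rfl fun a _ => ?_
      simp only [Equiv.coe_mulLeft]
      congr 3
      · rw [mul_inv_rev, mul_comm a⁻¹, ← mul_assoc, mul_inv_cancel, one_mul]
    have hsum : ∑ χ, w χ = (Fintype.card (A →* ℂˣ) : ℂ) • v := by
      simp only [w]
      rw [Finset.sum_comm]
      simp only [← Finset.sum_smul]
      rw [Finset.sum_eq_single (1 : A)]
      · simp [act]
      · intro a _ ha
        obtain ⟨χ₀, hχ₀⟩ :=
          CommGroup.exists_apply_ne_one_of_hasEnoughRootsOfUnity A ℂ (inv_ne_one.2 ha)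
        let ev : (A →* ℂˣ) →* ℂ :=
          { toFun := fun χ => ((χ a⁻¹ : ℂˣ) : ℂ)
            map_one' := by simp
            map_mul' := fun χ ψ => by simp }
        have hev : ev ≠ 1 := fun h => hχ₀ (Units.ext (by simpa [ev] using DFunLike.congr_fun h χ₀))
        have := sum_hom_units_eq_zero ev hev
        simp only [ev, MonoidHom.coe_mk, OneHom.coe_mk] at this
        rw [this, zero_smul]
      · simp
    have hcard : (Fintype.card (A →* ℂˣ) : ℂ) ≠ 0 := by simp
    rw [← inv_smul_smul₀ hcard v, ← hsum]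
    exact Submodule.smul_mem _ _ (Submodule.sum_mem _ fun χ _ => Submodule.subset_span (hw χ))
  obtain ⟨b, hbE, hbspan, hbli⟩ := exists_linearIndependent ℂ E
  rw [hspan] at hbspan
  let B := Module.Basis.mk hbli (by rw [Subtype.range_coe, hbspan])
  let eqv := B.indexEquiv (Pi.basisFun ℂ (Fin d))
  let cols : Fin d → (Fin d → ℂ) := fun i => (eqv.symm i : Fin d → ℂ)
  have hli : LinearIndependent ℂ cols := hbli.comp _ eqv.symm.injective
  let Pm : Matrix (Fin d) (Fin d) ℂ := Matrix.of fun r i => cols i r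
  have hu : IsUnit Pm := Matrix.linearIndependent_cols_iff_isUnit.1 hli
  refine ⟨hu.unit, fun a => ?_⟩
  choose μ hμ using fun i => hbE (eqv.symm i).2 a
  refine ⟨μ, ?_⟩
  have h1 : (φ a : Matrix (Fin d) (Fin d) ℂ) * Pm = Pm * Matrix.diagonal μ := by
    ext r i
    have := congrFun (hμ i) r
    simp only [Matrix.mul_diagonal]
    simpa [act, cols, Pm, Matrix.mul_apply, Matrix.mulVec, dotProduct, mul_comm] using this
  rw [mul_assoc, Units.val_mul, Units.val_mul, hu.unit_spec, h1, ← mul_assoc, IsUnit.val_inv_mul,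
    one_mul]

theorem age_eq_of_diagonal {d : ℕ} (g P : GLC d) (μ : Fin d → ℂ)
    (h : ((P⁻¹ * g * P : GLC d) : Matrix (Fin d) (Fin d) ℂ) = Matrix.diagonal μ) :
    age g = ∑ i, Int.fract (Complex.arg (μ i) / (2 * Real.pi)) := by
  have hc : (g : Matrix (Fin d) (Fin d) ℂ).charpoly = ∏ i, (Polynomial.X - Polynomial.C (μ i)) := by
    rw [← Matrix.charpoly_diagonal, ← h, Units.val_mul, Units.val_mul,
      Matrix.coe_units_inv, Matrix.charpoly_units_conj']
  rw [age, hc, Polynomial.roots_prod _ _ (Finset.prod_ne_zero_iff.2 fun i _ =>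
    Polynomial.X_sub_C_ne_zero _)]
  simp [List.sum_ofFn, Function.comp_def]

/-- Linear substitutions preserve local integrability. -/
theorem lintegral_comp_mulVec_lt_top {d : ℕ} (M : GLC d) (F : (Fin d → ℂ) → ℝ≥0∞)
    (hF : Measurable F) (h : ∀ K, IsCompact K → ∫⁻ x in K, F x < ⊤)
    (K : Set (Fin d → ℂ)) (hK : IsCompact K) :
    ∫⁻ x in K, F ((M : Matrix (Fin d) (Fin d) ℂ).mulVec x) < ⊤ := by
  let T : (Fin d → ℂ) →ₗ[ℝ] (Fin d → ℂ) :=
    (Matrix.mulVecLin (M : Matrix (Fin d) (Fin d) ℂ)).restrictScalars ℝ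
  have hT : ∀ x, T x = (M : Matrix (Fin d) (Fin d) ℂ).mulVec x := fun x => rfl
  let T' : (Fin d → ℂ) →ₗ[ℝ] (Fin d → ℂ) :=
    (Matrix.mulVecLin ((M⁻¹ : GLC d) : Matrix (Fin d) (Fin d) ℂ)).restrictScalars ℝ
  have hinv : T'.comp T = LinearMap.id := by
    refine LinearMap.ext fun x => ?_
    show ((M⁻¹ : GLC d) : Matrix (Fin d) (Fin d) ℂ).mulVec
      ((M : Matrix (Fin d) (Fin d) ℂ).mulVec x) = x
    simp [Matrix.mulVec_mulVec]
  have hdet : LinearMap.det T ≠ 0 := by
    intro h0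
    have := congrArg LinearMap.det hinv
    rw [LinearMap.det_comp, h0, mul_zero, LinearMap.det_id] at this
    exact zero_ne_one this
  have hTc : Continuous T := T.continuous_of_finiteDimensional
  have hinj : Function.Injective T := fun x y hxy => by
    have := congrArg T' hxy
    rwa [← LinearMap.comp_apply, ← LinearMap.comp_apply, hinv] at this
  have hpre : T ⁻¹' (T '' K) = K := Set.preimage_image_eq K hinj
  have := setLIntegral_map (μ := (volume : Measure (Fin d → ℂ)))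
    (hK.image hTc).measurableSet hF hTc.measurable
  rw [hpre, Measure.map_linearMap_addHaar_eq_smul_addHaar volume hdet] at this
  simp only [← hT]
  rw [← this, setLIntegral_smul_measure, smul_eq_mul]
  exact ENNReal.mul_lt_top ENNReal.ofReal_lt_top (h _ (hK.image hTc))

/-- The integrand attached to a polynomial is measurable. -/
theorem measurable_eval_rpow {d : ℕ} (f : MvPolynomial (Fin d) ℂ) (t : ℝ) :
    Measurable fun x : Fin d → ℂ => ‖MvPolynomial.eval x f‖ₑ ^ t :=
  Measurable.pow_const (Measurable.enorm f.continuous_eval.measurable) _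

theorem ne_zero_of_integrable {d : ℕ} (f : MvPolynomial (Fin d) ℂ) {t : ℝ} (ht : t < 0)
    (h : ∀ K, IsCompact K → ∫⁻ x in K, ‖MvPolynomial.eval x f‖ₑ ^ t < ⊤) : f ≠ 0 := by
  rintro rfl
  have := h _ (isCompact_closedBall (0 : Fin d → ℂ) 1)
  simp [ENNReal.zero_rpow_of_neg ht, ENNReal.top_mul,
    (Metric.measure_closedBall_pos volume (0 : Fin d → ℂ) one_pos).ne'] at this

/-- Complement for a finite abelian group. -/
theorem abelian_complement (d : ℕ) {ε : ℝ} (hε : 0 < ε) :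
    ∃ n : ℕ, 2 ≤ n ∧ ∀ (A : Type) [CommGroup A] [Finite A] (φ : A →* GLC d),
      (∀ a, φ a ≠ 1 → ε ≤ age (φ a)) →
      ∃ f : MvPolynomial (Fin d) ℂ,
        (∀ a x, MvPolynomial.eval ((φ a : Matrix (Fin d) (Fin d) ℂ).mulVec x) f =
          (φ a : Matrix (Fin d) (Fin d) ℂ).det ^ n * MvPolynomial.eval x f) ∧
        ∀ K, IsCompact K → ∫⁻ x in K, ‖MvPolynomial.eval x f‖ₑ ^ (-((2 : ℝ) / n)) < ⊤ := by
  classical
  obtain ⟨n, hn, hexp⟩ := exists_exponents (Fin d) hε
  refine ⟨n, hn, fun A _ _ φ hage => ?_⟩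
  obtain ⟨P, hP⟩ := exists_eigenbasis φ
  choose μ hμ using hP
  have hmul : ∀ a b i, μ (a * b) i = μ a i * μ b i := by
    intro a b i
    have : Matrix.diagonal (μ (a * b)) = Matrix.diagonal (μ a) * Matrix.diagonal (μ b) := by
      rw [← hμ, ← hμ, ← hμ, map_mul, ← Units.val_mul]
      congr 1
      group
    rw [Matrix.diagonal_mul_diagonal] at this
    exact congrFun (Matrix.diagonal_injective this) i
  have hone : ∀ i, μ 1 i = 1 := fun i => by
    have : Matrix.diagonal (μ 1) = Matrix.diagonal (fun _ => (1 : ℂ)) := by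
      rw [← hμ, map_one, mul_one, inv_mul_cancel, Units.val_one, Matrix.diagonal_one]
    exact congrFun (Matrix.diagonal_injective this) i
  let lam : Fin d → (A →* ℂ) := fun i =>
    { toFun := fun a => μ a i, map_one' := hone i, map_mul' := fun a b => hmul a b i }
  obtain ⟨L, e, he, hsum⟩ := hexp A lam fun a ⟨i, hi⟩ => by
    have hne : φ a ≠ 1 := by
      intro h1
      apply hi
      have : Matrix.diagonal (μ a) = Matrix.diagonal (fun _ => (1 : ℂ)) := by
        rw [← hμ, h1, mul_one, inv_mul_cancel, Units.val_one, Matrix.diagonal_one]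
      exact congrFun (Matrix.diagonal_injective this) i
    exact (hage a hne).trans_eq (age_eq_of_diagonal _ P _ (hμ a))
  obtain ⟨c, hc⟩ := exists_generic hn e hsum
  let Q : GLC d := P⁻¹
  let y : Fin d → MvPolynomial (Fin d) ℂ := fun i =>
    ∑ j, MvPolynomial.C ((Q : Matrix (Fin d) (Fin d) ℂ) i j) * MvPolynomial.X j
  let f : MvPolynomial (Fin d) ℂ := ∑ j, MvPolynomial.C (c j) * ∏ i, y i ^ e j i
  have hy : ∀ x i, MvPolynomial.eval x (y i) = (Q : Matrix (Fin d) (Fin d) ℂ).mulVec x i := by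
    intro x i; simp [y, Matrix.mulVec, dotProduct]
  have hf : ∀ x, MvPolynomial.eval x f =
      ∑ j, c j * ∏ i, (Q : Matrix (Fin d) (Fin d) ℂ).mulVec x i ^ e j i := by
    intro x; simp [f, hy]
  refine ⟨f, fun a x => ?_, fun K hK => ?_⟩
  · have hQ : (Q : Matrix (Fin d) (Fin d) ℂ).mulVec ((φ a : Matrix (Fin d) (Fin d) ℂ).mulVec x)
        = fun i => μ a i * (Q : Matrix (Fin d) (Fin d) ℂ).mulVec x i := by
      have : (Q : Matrix (Fin d) (Fin d) ℂ) * (φ a : Matrix (Fin d) (Fin d) ℂ)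
          = Matrix.diagonal (μ a) * (Q : Matrix (Fin d) (Fin d) ℂ) := by
        rw [← hμ, ← Units.val_mul, ← Units.val_mul, mul_inv_cancel_right]
      rw [Matrix.mulVec_mulVec, this, ← Matrix.mulVec_mulVec]
      funext i
      rw [Matrix.mulVec_diagonal]
    have hdet : (φ a : Matrix (Fin d) (Fin d) ℂ).det = ∏ i, lam i a := by
      show _ = ∏ i, μ a i
      rw [← Matrix.det_diagonal, ← hμ, Units.val_mul, Units.val_mul, Matrix.det_units_conj']
    rw [hf, hf, hQ, hdet, Finset.mul_sum]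
    refine Finset.sum_congr rfl fun j _ => ?_
    rw [← he j a]
    simp only [mul_pow, Finset.prod_mul_distrib]
    simp only [lam, MonoidHom.coe_mk, OneHom.coe_mk]
    ring
  · simp only [hf]
    exact lintegral_comp_mulVec_lt_top Q
      (fun z => ‖∑ j, c j * ∏ i, z i ^ e j i‖ₑ ^ (-((2 : ℝ) / n)))
      (Measurable.pow_const (Measurable.enorm (by fun_prop)) _) hc K hK

theorem exists_rpow_prod_le {α : Type*} [Fintype α] [Nonempty α] (a : α → ℝ≥0∞) {s : ℝ}
    (hs : 0 ≤ s) :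
    (∏ i, a i) ^ (-(s / Fintype.card α)) ≤ ∑ i, a i ^ (-s) := by
  obtain ⟨i, -, hi⟩ := Finset.exists_min_image Finset.univ a Finset.univ_nonempty
  refine le_trans ?_ (Finset.single_le_sum (fun j _ => (zero_le : 0 ≤ a j ^ (-s))) (Finset.mem_univ i))
  rw [ENNReal.rpow_neg, ENNReal.rpow_neg, ENNReal.inv_le_inv]
  calc a i ^ s = (a i ^ Fintype.card α) ^ (s / Fintype.card α) := by
        rw [← ENNReal.rpow_natCast_mul]
        congr 1
        field_simp
    _ ≤ (∏ j, a j) ^ (s / Fintype.card α) := by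
        refine ENNReal.rpow_le_rpow ?_ (by positivity)
        calc a i ^ Fintype.card α = ∏ _j : α, a i := by simp
          _ ≤ _ := Finset.prod_le_prod' fun j hj => hi j hj

theorem quotient_complement (d : ℕ) {ε : ℝ} (hε : 0 < ε) :
    ∃ n : ℕ, 0 < n ∧ ∀ G : Subgroup (GLC d), Finite G →
      (∀ g ∈ G, g ≠ 1 → ε ≤ age g) →
      ∃ f : MvPolynomial (Fin d) ℂ, f ≠ 0 ∧
        (∀ g ∈ G, ∀ x : Fin d → ℂ,
          MvPolynomial.eval ((g : Matrix (Fin d) (Fin d) ℂ).mulVec x) f =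
            (g : Matrix (Fin d) (Fin d) ℂ).det ^ n * MvPolynomial.eval x f) ∧
        ∀ K : Set (Fin d → ℂ), IsCompact K →
          ∫⁻ x in K, ‖MvPolynomial.eval x f‖ₑ ^ (-((2 : ℝ) / n)) < ⊤ := by
  classical
  obtain ⟨n, hn, hab⟩ := abelian_complement d hε
  set J := (jordanBound d).factorial with hJ
  have hJpos : 0 < J := Nat.factorial_pos _
  refine ⟨n * J, Nat.mul_pos (by omega) hJpos, fun G hG hage => ?_⟩
  obtain ⟨A, hcomm, hidx, hidx0⟩ := jordan G
  let _ : CommGroup A :=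
    { (inferInstance : Group A) with mul_comm := fun a b => Subtype.ext (hcomm _ a.2 _ b.2) }
  obtain ⟨f₀, hf₀, hint⟩ := hab A (G.subtype.comp A.subtype)
    (fun a ha => hage _ (SetLike.coe_mem (a : G)) ha)
  have := Fintype.ofFinite (G ⧸ A)
  let ev : MvPolynomial (Fin d) ℂ → (Fin d → ℂ) → ℂ := fun p x => MvPolynomial.eval x p
  let det' : G → ℂ := fun g => (((g : GLC d)) : Matrix (Fin d) (Fin d) ℂ).det
  let mv : G → (Fin d → ℂ) → (Fin d → ℂ) :=
    fun g x => (((g : GLC d)) : Matrix (Fin d) (Fin d) ℂ).mulVec x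
  have mv_mul : ∀ g h x, mv (g * h) x = mv g (mv h x) := fun g h x => by
    simp [mv, Matrix.mulVec_mulVec]
  have det_mul : ∀ g h, det' (g * h) = det' g * det' h := fun g h => by
    simp [det']
  have hA : ∀ a ∈ A, ∀ x, ev f₀ (mv a x) = det' a ^ n * ev f₀ x := fun a ha x => hf₀ ⟨a, ha⟩ x
  let F : G → (Fin d → ℂ) → ℂ := fun g x => det' g ^ n * ev f₀ (mv g⁻¹ x)
  have hFA : ∀ g h : G, (g : G ⧸ A) = h → F g = F h := by
    intro g h hgh
    funext x
    have ha : g⁻¹ * h ∈ A := QuotientGroup.eq.1 hgh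
    have e1 : h = g * (g⁻¹ * h) := by group
    have hx := hA _ ha (mv h⁻¹ x)
    rw [← mv_mul, mul_assoc, mul_inv_cancel, mul_one] at hx
    simp only [F]
    rw [hx, ← mul_assoc, ← mul_pow]
    congr 2
    rw [← det_mul, ← e1]
  let lin : G → Fin d → MvPolynomial (Fin d) ℂ := fun g i =>
    ∑ j, MvPolynomial.C ((((g : GLC d)) : Matrix (Fin d) (Fin d) ℂ) i j) * MvPolynomial.X j
  let fq : G ⧸ A → MvPolynomial (Fin d) ℂ := fun q =>
    MvPolynomial.C (det' q.out ^ n) * MvPolynomial.bind₁ (lin q.out⁻¹) f₀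
  have hfq : ∀ q x, ev (fq q) x = F q.out x := by
    intro q x
    have hlin : (fun i => MvPolynomial.eval x (lin q.out⁻¹ i)) = mv q.out⁻¹ x := by
      funext i
      simp [lin, mv, Matrix.mulVec, dotProduct]
    simp only [ev, fq, F, map_mul, MvPolynomial.eval_C]
    congr 1
    rw [← hlin]
    exact MvPolynomial.eval₂Hom_bind₁ _ _ _ _
  set k := Fintype.card (G ⧸ A) with hk
  have hkA : k = A.index := by rw [hk, ← Nat.card_eq_fintype_card]; rfl
  have hkpos : 0 < k := Fintype.card_pos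
  obtain ⟨m, hm⟩ : k ∣ J := Nat.dvd_factorial hkpos (hkA.trans_le hidx)
  let P : MvPolynomial (Fin d) ℂ := (∏ q, fq q) ^ m
  have hPev : ∀ x, ev P x = (∏ q, ev (fq q) x) ^ m := fun x => by simp [ev, P]
  have hsemi : ∀ g ∈ G, ∀ x : Fin d → ℂ,
      MvPolynomial.eval ((g : Matrix (Fin d) (Fin d) ℂ).mulVec x) P =
        (g : Matrix (Fin d) (Fin d) ℂ).det ^ (n * J) * MvPolynomial.eval x P := by
    intro g hg x
    change ev P (mv ⟨g, hg⟩ x) = det' ⟨g, hg⟩ ^ (n * J) * ev P x
    set h : G := ⟨g, hg⟩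
    have step : ∀ q : G ⧸ A, ev (fq q) (mv h x) = det' h ^ n * ev (fq (h⁻¹ • q)) x := by
      intro q
      rw [hfq, hfq]
      have : ((h⁻¹ • q).out : G ⧸ A) = ((h⁻¹ * q.out : G) : G ⧸ A) := by
        rw [QuotientGroup.out_eq']
        conv_lhs => rw [← QuotientGroup.out_eq' q]
        rfl
      rw [hFA _ _ this]
      simp only [F]
      rw [← mv_mul, mul_inv_rev, inv_inv, ← mul_assoc, ← mul_pow, ← det_mul, mul_inv_cancel_left]
    rw [hPev, hPev, Finset.prod_congr rfl fun q _ => step q, Finset.prod_mul_distrib,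
      Finset.prod_const, Finset.card_univ, ← hk,
      show ∏ q : G ⧸ A, ev (fq (h⁻¹ • q)) x = ∏ q, ev (fq q) x from
        Equiv.prod_comp (MulAction.toPerm h⁻¹) (fun q => ev (fq q) x), mul_pow, ← pow_mul, ← pow_mul,
      hm]
  have hintP : ∀ K : Set (Fin d → ℂ), IsCompact K →
      ∫⁻ x in K, ‖MvPolynomial.eval x P‖ₑ ^ (-((2 : ℝ) / (n * J : ℕ))) < ⊤ := by
    intro K hK
    have hJk : (J : ℝ) = k * m := by exact_mod_cast hm
    have hmpos : 0 < m := by
      rcases Nat.eq_zero_or_pos m with h0 | h0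
      · rw [h0, mul_zero] at hm; omega
      · exact h0
    have hn0 : (0 : ℝ) < n := by exact_mod_cast (show 0 < n by omega)
    refine lt_of_le_of_lt (lintegral_mono fun x => ?_)
      (?_ : ∫⁻ x in K, ∑ q, ‖ev (fq q) x‖ₑ ^ (-((2 : ℝ) / n)) < ⊤)
    · change ‖ev P x‖ₑ ^ _ ≤ _
      rw [hPev, enorm_pow, ← ENNReal.rpow_natCast_mul]
      have e : (m : ℝ) * -(2 / ((n * J : ℕ) : ℝ)) = -((2 / (n : ℝ)) / k) := by
        push_cast
        rw [hJk]
        have h1 : (0 : ℝ) < m := by exact_mod_cast hmpos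
        have h2 : (0 : ℝ) < k := by exact_mod_cast hkpos
        field_simp
      rw [e]
      have hprod : ‖∏ q, ev (fq q) x‖ₑ = ∏ q, ‖ev (fq q) x‖ₑ := by
        simp only [← ofReal_norm, norm_prod]
        exact ENNReal.ofReal_prod_of_nonneg fun q _ => norm_nonneg _
      rw [hprod]
      exact exists_rpow_prod_le _ (by positivity)
    · rw [lintegral_finsetSum _ fun q _ => measurable_eval_rpow (fq q) _]
      refine ENNReal.sum_lt_top.2 fun q _ => ?_
      change ∫⁻ a in K, ‖ev (fq q) a‖ₑ ^ (-((2 : ℝ) / n)) < ⊤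
      simp only [hfq, F, enorm_mul]
      simp only [fun (a b : ℂ) (t : ℝ) =>
        ENNReal.mul_rpow_of_ne_top (enorm_ne_top (x := a)) (enorm_ne_top (x := b)) t]
      have hne : ‖det' q.out ^ n‖ₑ ≠ 0 := by
        rw [enorm_ne_zero]
        exact pow_ne_zero _ (Matrix.GeneralLinearGroup.det_ne_zero _)
      rw [lintegral_const_mul' _ _ (ENNReal.rpow_ne_top_of_ne_zero hne enorm_ne_top)]
      exact ENNReal.mul_lt_top (ENNReal.rpow_ne_top_of_ne_zero hne enorm_ne_top).lt_top
        (lintegral_comp_mulVec_lt_top _ (fun z => ‖ev f₀ z‖ₑ ^ (-((2 : ℝ) / n)))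
          (measurable_eval_rpow f₀ _) hint K hK)
  refine ⟨P, ne_zero_of_integrable P ?_ hintP, hsemi, hintP⟩
  have : (0 : ℝ) < (n * J : ℕ) := by
    exact_mod_cast Nat.mul_pos (by omega) hJpos
  simp only [Left.neg_neg_iff]
  positivity

end Vale.Agent.P283
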